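import Vale.Agent.P354EF.Ecl

/-!
The proof of the estimate in finite time on the state of the estimates.
-/

open scoped ContDiff Topology ENNReal
open Set Filter MeasureTheory

noncomputable section

namespace Vale.Agent.P354EF

open P354XG P354XI P354XD P354XR P354BO P354Z P354XT P354XF P354FN P354CV
open P354XI.Ibp (rl)

variable {c : P354Z.Cs} {E : Est} (h : Nr c E) {ψ : ℝ → ℝ} {w bd : ℝ × ℝ → ℝ}

theorem bad_le {A : Type} [CommRing A] [Algebra ℂ A] {Φ : Fld A} (i : Φ.Is) {ph : A}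
    (rp : Φ.B.Re ph) (hw : ContDiff ℝ ∞ w) {x : Φ.B.Pt} {x0 x1 b : ℝ} (p0 : 0 ≤ Φ.B.val x ph)
    (e1 : |fderiv ℝ w (Φ.pr x) (1, 0) + x0| ≤ b)
    (e2 : |fderiv ℝ w (Φ.pr x) (-Φ.f (Φ.pr x).2, 1) + x1| ≤ b) (a : Fin 5) :
    |gr Φ x (ph * Φ.fn w) a + (Φ.B.val x ph • ![x0, x1, 0, 0, 0]) a +
      ((-w (Φ.pr x)) • gr Φ x ph) a| ≤ Φ.B.val x ph * b := by
  have u : ∀ {y t : ℝ}, |y| ≤ b → t = Φ.B.val x ph * y → |t| ≤ Φ.B.val x ph * b := fun e1 e2 => by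
    rw [e2, abs_mul, abs_of_nonneg p0]
    exact mul_le_mul_of_nonneg_left e1 p0
  have z0 : |(0 : ℝ)| ≤ b := abs_zero.trans_le ((abs_nonneg _).trans e1)
  rw [fd_dec] at e2
  rw [gr_mul i rp hw a]
  fin_cases a
  · exact u e1 (by simp [dt]; ring)
  · exact u e2 (by simp; ring)
  all_goals exact u z0 (by simp)

theorem Ph_of {F u : Sm (on E.O1)} (x : (Ph h 0).B.Pt) {g : ℝ}
    (e : ∀ v, fderiv ℝ (fv F) x.1.1 v = g * fderiv ℝ (fv u) x.1.1 v) :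
    gr (Ph h 0) x F = g • gr (Ph h 0) x u := funext fun a => by
  have := X_of h.co.op (cone_off h.co) ∅ 0 (fun r => hs c.M (E.M, E.a, r))
    (sl_sm (js_sm h.M0) E.M E.a) x.1.2 e a
  change (fv ((Ph h 0).X a F) x.1.1).re = g * (fv ((Ph h 0).X a u) x.1.1).re
  exact (congrArg Complex.re this).trans (Complex.re_ofReal_mul _ _)

/-- The weight. -/
def om (E : Est) (ψ : ℝ → ℝ) (w : ℝ × ℝ → ℝ) : Sm (on E.O1) := cp ψ E.sig * fO E.O1 w

section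
variable (hψ : ContDiff ℝ ∞ ψ) (hw : ContDiff ℝ ∞ w)
include h hψ hw

theorem fv_om {x : E6} (hx : x ∈ E.O1) : fv (om E ψ w) x = (ψ (rv E.sig x) * w (tr x) : ℝ) := by
  rw [om, fv_mul, fv_cp h.co.op hψ _ hx, fv_fO hw hx, Complex.ofReal_mul]

theorem rv_om {x : E6} (hx : x ∈ E.O1) : rv (om E ψ w) x = ψ (rv E.sig x) * w (tr x) := by
  rw [rv, fv_om h hψ hw hx, Complex.ofReal_re]

theorem re_om : cj (om E ψ w) = om E ψ w := by
  rw [om, map_mul, re_cp h.co.op hψ, re_fO h.co.op hw]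

theorem om_lv (m : ℕ) {x : E6} (hx : x ∈ E.O1) (t : ℝ) :
    (fv (rl _ t * (om E ψ w * h.raw.brg.lv2 (Ph h 0) (AlgHom.id ℂ _) m)) x).re =
      t * (ψ (rv E.sig x) * w (tr x) * lvl h.raw m x) := by
  rw [fv_mul, fv_mul, fv_om h hψ hw hx, rv_lv2, rl, fv_alg _ hx, ← Complex.ofReal_mul,
    ← Complex.ofReal_mul, Complex.ofReal_re]

theorem om_pos (p : ∀ t, 0 ≤ ψ t) (q : ∀ t, 0 ≤ w t) (x : E6) : 0 ≤ rv (om E ψ w) x := by
  by_cases hx : x ∈ E.O1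
  · rw [rv_om h hψ hw hx]; exact mul_nonneg (p _) (q _)
  · simp [rv, fv_out _ hx]

theorem om_lv_pos (p : ∀ t, 0 ≤ ψ t) (q : ∀ t, 0 ≤ w t) (m : ℕ) {t : ℝ} (t0 : 0 ≤ t) (x : E6) :
    0 ≤ (fv (rl _ t * (om E ψ w * h.raw.brg.lv2 (Ph h 0) (AlgHom.id ℂ _) m)) x).re := by
  by_cases hx : x ∈ E.O1
  · rw [om_lv h hψ hw m hx, lvl]
    have := p (rv E.sig x)
    have := q (tr x)
    positivity
  · simp [fv_out _ hx]

theorem om_wt (sh : E.Shape c) (p : ∀ t, 0 ≤ ψ t) (q : ∀ t, 0 ≤ w t) {s : ℝ} (hs : s ∈ E.Lv)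
    (e : ∀ x ∈ E.O1, An x → ψ (rv E.sig x) ≠ 0 → w (tr x) ≠ 0 →
      rv E.sig x ≤ s ∧ Est.Ab c x ∧ x.2.1 ≤ c.Rs - 1) : (Ph h 0).B.Wt (om E ψ w) :=
  ⟨memK h.co.op (sh.cp1 s hs) (fun _ hx => hx.1) fun x hx a b => by
    rw [fv_om h hψ hw hx, Complex.ofReal_eq_zero]
    by_contra o
    exact b ⟨hx, an_of a, e x hx (an_of a) (left_ne_zero_of_mul o) (right_ne_zero_of_mul o)⟩,
    re_om h hψ hw, fun x => om_pos h hψ hw p q _⟩

theorem om_off (p : ∀ t, 0 ≤ ψ t) (q : ∀ t, 0 ≤ w t) (x : (Ph h 0).B.Pt)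
    (e : (Ph h 0).B.val x (om E ψ w) = 0) :
    P354FN.Off (kw (Ph h 0) E.M E.a) (Ph h 0).B (om E ψ w) x :=
  ⟨e, fun a => (congrFun (Ph_of h (u := 0) (g := 0) x fun v => by
    rw [fd_min h.co.op (re_om h hψ hw) (om_pos h hψ hw p q) x.1.2 e]; simp) a).trans (by simp)⟩

theorem om_at (sh : E.Shape c) (hb : ContDiff ℝ ∞ bd) (p : ∀ t, 0 ≤ ψ t) (an : Antitone ψ)
    (q : ∀ t, 0 ≤ w t) (x : (Ph h 0).B.Pt) {k cm κ ε δ : ℝ} (k1 : 1 ≤ k)
    (ha : |E.a| ≤ k) (hM : |E.M| ≤ k) (r1 : x.1.1.2.1 ≤ k) (r2 : 1 ≤ k * x.1.1.2.1)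
    (c0 : 0 < cm) (c1 : cm ≤ 1) (κ0 : 0 < κ) (w0 : w (tr x.1.1) ≠ 0)
    (d : ∀ a b, J1 (Ph h 0).B (Ph h 0).X x (h.raw.brg.del a b) ε)
    (hε : 25 * ε < cm ^ 4) (hδ : 6 * δ ≤ cm) (d1 : ∀ e, ‖fv (E.d1 c (.inl (1, e))) x.1.1‖ ≤ δ)
    (W : Wp cm κ c.M E.M E.a w bd (tr x.1.1)) :
    At (kw (Ph h 0) E.M E.a) (Ph h 0).B k cm κ ε (om E ψ w) (om E ψ bd) h.raw.brg.del x := by
  obtain ⟨x0, x1, C, e0, e1, e2⟩ := W
  have i := Ph_is h 0
  have vr : (Ph h 0).B.val x (kw (Ph h 0) E.M E.a).r = x.1.1.2.1 := i.val_r x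
  have z : (kw (Ph h 0) E.M E.a).Zone (Ph h 0).B k x := ⟨vr ▸ r1, vr ▸ r2⟩
  have cn : Cn (kw (Ph h 0) E.M E.a) (Ph h 0).B cm x ![x0, x1, 0, 0, 0] := by
    rw [Cn, vr]; exact C.cone c0 c1 ((kw_is i E.M E.a).val_one x)
  have n : x1 < 0 := by linarith [mul_pos κ0 ((q _).lt_of_ne' w0)]
  have l := ecl h sh x k1 ha hM z c0 c1 (fun a b => (d a b).1) hε hδ d1 cn n
    (lam := w (tr x.1.1) * -deriv ψ (rv E.sig x.1.1))
    (mul_nonneg (q _) (neg_nonneg.2 an.deriv_nonpos))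
  have p0 := p (rv E.sig x.1.1)
  have v : (Ph h 0).B.val x (cp ψ E.sig) = ψ (rv E.sig x.1.1) :=
    (congrArg Complex.re (fv_cp h.co.op hψ _ x.1.2)).trans (Complex.ofReal_re _)
  refine ⟨z, d, ψ (rv E.sig x.1.1) • ![x0, x1, 0, 0, 0], _, _, cn.smul p0, ?_, cn, n,
    by linarith [show _ + _ ≤ _ from l.1], l.2, fun a => ?_⟩
  · rw [show (Ph h 0).B.val x (om E ψ w) = _ from rv_om h hψ hw x.1.2]
    simp only [Pi.smul_apply, smul_eq_mul, Matrix.cons_val]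
    linarith [mul_le_mul_of_nonneg_left e0 p0]
  · have := bad_le i (ph := cp ψ E.sig) (re_cp h.co.op hψ _) hw (v ▸ p0) e1 e2 a
    rw [v, Ph_of h x (fd_cp h.co.op hψ sh.b1.re x.1.2), smul_smul, neg_mul_comm] at this
    exact this.trans_eq (rv_om h hψ hb x.1.2).symm

end

theorem yz_ms (k : Cone E.O1) {L : Set ℝ} (hL : IsOpen L) :
    MeasurableSet {x | x ∈ E.O1 ∧ An x ∧ x ∈ {x | rv E.sig x ∈ L}} := by
  have := (rv_open k.op E.sig hL).measurableSet.inter an_ms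
  refine cast (congrArg _ (Set.ext fun x => ?_)) this
  simp only [mem_inter_iff, mem_ofPred]
  tauto

/-- The estimate. -/
theorem efin : EFIN := by
  intro M0 r1 ρ cm n M00 r0 c0 c1 n1
  obtain ⟨m, rfl⟩ : ∃ m, n = m + 1 := ⟨n - 1, by omega⟩
  obtain ⟨k, k1, k2, k3, k4⟩ := ((eventually_ge_atTop 10).and ((eventually_ge_atTop ρ).and
    ((eventually_ge_atTop r1⁻¹).and (eventually_ge_atTop (5 / 4 * M0))))).exists
  obtain ⟨C, eo, C1⟩ := ((est_out M00 r0 ρ (m + 1) 2 le_rfl).and (eventually_ge_atTop 1)).exists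
  obtain ⟨C2, oe, C3⟩ := ((out_eta (m + 1) C).and (eventually_gt_atTop 0)).exists
  obtain ⟨δ0, κ, C', δ1, κ0, C4, ff⟩ := famFin k1 c0 c1 m C
  obtain ⟨C0, C5, she⟩ := shell
  obtain ⟨ε, ε0, hε⟩ : ∃ ε, 0 < ε ∧ 10 ^ 6 * k ^ 12 * ε ≤ cm ^ 4 :=
    ⟨cm ^ 4 / (10 ^ 6 * k ^ 12), by positivity, (mul_div_cancel₀ _ (by positivity)).le⟩
  have ε1 : 25 * ε < cm ^ 4 := by
    nlinarith [mul_le_mul_of_nonneg_right (one_le_pow₀ (n := 12) (show 1 ≤ k by linarith)) ε0.le]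
  obtain ⟨d, d0, d1, d2, d3⟩ : ∃ d, 0 < d ∧ d ≤ δ0 ∧ C * d ≤ ε ∧ C * d ≤ 1 :=
    ⟨min δ0 (min ε 1 / C), by positivity, min_le_left _ _,
      ((le_div_iff₀' (by linarith)).1 (min_le_right _ _)).trans (min_le_left _ _),
      ((le_div_iff₀' (by linarith)).1 (min_le_right _ _)).trans (min_le_right _ _)⟩
  obtain ⟨μ, μ0, μ1, μ2⟩ : ∃ μ, 0 < μ ∧ C * μ ≤ d ∧ 6 * μ ≤ cm :=
    ⟨min (d / C) (cm / 6), by positivity, (le_div_iff₀' (by linarith)).1 (min_le_left _ _),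
      (le_div_iff₀' (by norm_num)).1 (min_le_right _ _)⟩
  obtain ⟨X, hX, X1⟩ : ∃ X, X = Real.exp (4 + 2 * ((m + 1) / 2 + 1 : ℕ)) ∧ 1 ≤ X :=
    ⟨_, rfl, Real.one_le_exp (by positivity)⟩
  refine ⟨κ, C0 * C2 * (C' / κ) * C2, μ / X, κ0, by positivity, by positivity, ?_⟩
  intro c E eM er M2 sh eq hρ L Lo Ll w bd hw hb w0 b0 H
  have h : Nr c E := ⟨sh.co1, eq, by linarith⟩
  have δμ : (μ / X) ^ 2 ≤ μ ^ 2 := pow_le_pow_left₀ (by positivity) (div_le_self μ0.le X1) 2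
  have O : ∀ x ∈ E.O1, An x → rv E.sig x ∈ L → w (tr x) ≠ 0 ∨ bd (tr x) ≠ 0 →
      ∀ φ : Sm (on E.O1) →ₐ[ℂ] ℂ, (∀ F, φ F = fv F x) → h.raw.brg.Out (m + 1) 2 C d φ :=
    fun x hx a l o φ e => by
    obtain ⟨-, b, -, q, -⟩ := H x hx a l o
    obtain ⟨s, s1, s2, s3⟩ := ex_unit' a
    have y := sr_mem sh.co1 (Real.exp_ne_zero (-s)) hx
    have q2 := (H _ y ⟨by rw [s2]; norm_num, by rw [s2]; norm_num⟩ (by
      rwa [rv, orb0 sh.co1 (base_eu sh.co1 sh.b1).2 (Real.exp_pos _)]) o).2.2.2.2 s2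
    have q3 := eta_hom sh eq ((m + 1) / 2 + 1) s1 (sr (Real.exp (-s)) x)
    rw [s3, ← hX] at q3
    refine eo c E h eM M2 x hx a (er ▸ (sh.rad1 x hx).1) b φ e μ μ0.le (fun i =>
      (q2_mono _ _ (by norm_num) _).trans ((q i).trans δμ)) (q3.trans ?_) d μ1 d3
    refine (mul_le_mul_of_nonneg_left q2 (sq_nonneg _)).trans_eq ?_
    rw [← mul_pow, mul_div_cancel₀ _ (by linarith)]
  have ha : |E.a| ≤ k := by linarith [eq.par.1, eq.par.2]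
  have hM : |E.M| ≤ k := by rw [abs_of_pos h.Mp]; linarith [eq.par.2]
  have two : ∀ s0 s, s0 < s → s ∈ L → s ∈ E.Lv →
      Yz E (fun x => w (tr x) * E.eta (m + 1) x) {x | rv E.sig x ∈ Iio s0} ≤
        ENNReal.ofReal (C0 * C2 * (C' / κ) * C2) *
          Yz E (fun x => bd (tr x) * E.eta (m + 1) x) {x | rv E.sig x ∈ L} := fun s0 s ss sL sV => by
    have s1 := dn_sm s0 s
    have s2 := dn_nonneg s0 s
    have lt : ∀ {x}, dn s0 s (rv E.sig x) ≠ 0 → rv E.sig x ≤ s := fun e =>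
      le_of_not_ge fun l => e (dn_zero ss l)
    have W1 := om_wt h s1 hw sh s2 w0 sV fun x hx a e o =>
      let ⟨b1, b2, _⟩ := H x hx a (Ll (lt e) sL) (.inl o); ⟨lt e, b1, by linarith⟩
    have W2 := om_wt h s1 hb sh s2 b0 sV fun x hx a e o =>
      let ⟨b1, b2, _⟩ := H x hx a (Ll (lt e) sL) (.inr o); ⟨lt e, b1, by linarith⟩
    have F := ff _ _ _ h.raw.brg (Ph h 0) (AlgHom.id ℂ _) E.M E.a (Ph_is h 0) (Ph_hom h 0) ha hM
      (re_del h 0) (Ph_P h 0) κ ε le_rfl hε _ _ W1 W2 (fun x => by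
        by_cases o : (Ph h 0).B.val x (om E (dn s0 s) w) = 0
        · exact .inr (om_off h s1 hw s2 w0 x o)
        have o := (rv_om h s1 hw x.1.2).symm.trans_ne o
        have l := Ll (lt (left_ne_zero_of_mul o)) sL
        have o := right_ne_zero_of_mul o
        obtain ⟨-, b, W, q, -⟩ := H _ x.1.2 (pt_an h 0 x) l (.inl o)
        have r := er ▸ (sh.rad1 _ x.1.2).1
        exact .inl (om_at h s1 hw sh hb s2 (fun _ _ e => sub_le_sub_left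
          (Real.smoothTransition.monotone (div_le_div_of_nonneg_right (sub_le_sub_right e _)
            (by linarith))) 1) w0 x (by linarith) ha hM (b.trans k2)
          ((inv_mul_cancel₀ r0.ne').ge.trans (mul_le_mul k3 r r0.le (by linarith))) c0 c1 κ0 o
          (fun a b => (out_j1 (Ph_is h 0) (Ph_hom h 0) (O _ x.1.2 (pt_an h 0 x) l (.inl o) _
            fun _ => rfl) le_rfl a b).le d2) ε1 μ2 (fun e => (pow_le_pow_iff_left₀ (norm_nonneg _)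
              μ0.le two_ne_zero).1 ((q2_val _ _ _ _).trans ((q _).trans δμ))) (eM ▸ W)))
      fun x o => ⟨2, d, one_le_two, (abs_of_pos d0).trans_le d1, by
        rcases o with o | o
        · have o := (rv_om h s1 hw x.1.2).symm.trans_ne o
          exact O _ x.1.2 (pt_an h 0 x) (Ll (lt (left_ne_zero_of_mul o)) sL)
            (.inl (right_ne_zero_of_mul o)) _ fun _ => rfl
        · have o := (rv_om h s1 hb x.1.2).symm.trans_ne o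
          exact O _ x.1.2 (pt_an h 0 x) (Ll (lt (left_ne_zero_of_mul o)) sL)
            (.inr (right_ne_zero_of_mul o)) _ fun _ => rfl⟩
    have A := she _ sh.co1 (rl _ C2 * (om E (dn s0 s) w *
      h.raw.brg.lv2 (Ph h 0) (AlgHom.id ℂ _) (m + 1)))
      (Ideal.mul_mem_left _ _ (Ideal.mul_mem_right _ _ W1.K)) (by
        simp only [om, D_mul, eu_lv2, Ibp.D_rl, eu_fO sh.co1.op hw,
          eu_cp sh.co1.op s1 sh.b1.re (base_eu sh.co1 sh.b1).2, mul_zero, add_zero])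
      (om_lv_pos h s1 hw s2 w0 _ C3.le)
    have B := shell' sh.co1.op (F := rl _ C2⁻¹ * (om E (dn s0 s) bd *
      h.raw.brg.lv2 (Ph h 0) (AlgHom.id ℂ _) (m + 1)))
      (Ideal.mul_mem_left _ _ (Ideal.mul_mem_right _ _ W2.K))
      (om_lv_pos h s1 hb s2 b0 _ (inv_pos.2 C3).le) (yz_ms sh.co1 Lo)
      (g := fun x => bd (tr x) * E.eta (m + 1) x) fun x hx a o => by
        rw [om_lv h s1 hb _ hx] at o ⊢
        have o := left_ne_zero_of_mul (right_ne_zero_of_mul o)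
        have l := Ll (lt (left_ne_zero_of_mul o)) sL
        refine ⟨⟨hx, a, l⟩, (inv_mul_le_iff₀ C3).2 ?_⟩
        have e := (oe c E h _ _ x _ (fun _ => rfl) (O x hx a l (.inr (right_ne_zero_of_mul o))
          (evP ⟨x, hx⟩) fun _ => rfl) _ le_rfl).2
        rw [mul_left_comm]
        exact mul_le_mul (mul_le_of_le_one_left (b0 _) (dn_le _ _ _)) e (by rw [lvl]; positivity)
          (b0 _)
    rw [Ibp.J_rl] at A B
    refine ((setLIntegral_mono' (yz_ms sh.co1 isOpen_Iio) fun x hx =>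
      ENNReal.ofReal_le_ofReal ?_).trans ((lintegral_mono_set fun x hx => hx.2.1).trans A)).trans ?_
    · rw [om_lv h s1 hw _ hx.1, dn_one ss (le_of_lt hx.2.2), one_mul, mul_left_comm]
      by_cases o : w (tr x) = 0
      · simp [o]
      · exact mul_le_mul_of_nonneg_left (oe c E h _ _ x _ (fun _ => rfl) (O x hx.1 hx.2.1
          (Ll (hx.2.2.le.trans ss.le) sL) (.inl o) (evP ⟨x, hx.1⟩) fun _ => rfl) _ le_rfl).1 (w0 _)
    · refine le_trans ?_ (mul_le_mul_right B _)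
      rw [← ENNReal.ofReal_mul (by positivity)]
      refine ENNReal.ofReal_le_ofReal ?_
      rw [mul_assoc _ C2, mul_inv_cancel_left₀ C3.ne', mul_assoc, mul_assoc]
      gcongr
      rw [div_mul_eq_mul_div, le_div_iff₀' κ0]
      exact F
  have U : {x | x ∈ E.O1 ∧ An x ∧ x ∈ {x | rv E.sig x ∈ L}} = ⋃ q : {q : ℚ // ↑q ∈ L ∩ E.Lv},
      {x | x ∈ E.O1 ∧ An x ∧ x ∈ {x | rv E.sig x ∈ Iio (q.1 : ℝ)}} := by
    refine Set.ext fun x => ⟨fun hx => ?_, fun hx => ?_⟩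
    · obtain ⟨u, hu, e⟩ := (nhds_basis_Ioo' ⟨_, sub_one_lt _⟩ ⟨_, lt_add_one _⟩).mem_iff.1
        ((Lo.inter sh.lvO).mem_nhds ⟨hx.2.2, sh.lv1 x hx.1⟩)
      obtain ⟨q, q1, q2⟩ := exists_rat_btwn hu.2
      exact mem_iUnion.2 ⟨⟨q, e ⟨hu.1.trans q1, q2⟩⟩, hx.1, hx.2.1, q1⟩
    · obtain ⟨q, a, b, e⟩ := mem_iUnion.1 hx
      exact ⟨a, b, Ll (le_of_lt e) q.2.1⟩
  rw [Yz, U]
  refine (setLIntegral_iUnion_of_directed _ (Monotone.directed_le fun p q e x hx => by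
    exact ⟨hx.1, hx.2.1, (show rv E.sig x < p.1 from hx.2.2).trans_le
      (Rat.cast_le.2 e)⟩)).trans_le (iSup_le fun q => ?_)
  obtain ⟨u, hu, e⟩ := (nhds_basis_Ioo' ⟨_, sub_one_lt _⟩ ⟨_, lt_add_one _⟩).mem_iff.1
    ((Lo.inter sh.lvO).mem_nhds q.2)
  obtain ⟨s, s1, s2⟩ := exists_between hu.2
  exact two q s s1 (e ⟨hu.1.trans s1, s2⟩).1 (e ⟨hu.1.trans s1, s2⟩).2

end Vale.Agent.P354EF
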