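import Vale.Agent.P354CV.Defs
import Vale.Agent.P354BO.Fld

/-!
The estimate in finite time on the state of the estimates.
-/

open scoped ContDiff ENNReal
open Set

noncomputable section

namespace Vale.Agent.P354EF

open Vale.Agent.P354XG Vale.Agent.P354XD Vale.Agent.P354XI Vale.Agent.P354Z Vale.Agent.P354CV
open Vale.Agent.P354BF (De)
open Vale.Agent.P354BO (tr)

/-- The covector with the values x0 on T and x1 on R is future directed with the margin cm. -/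
structure C2 (cm M a r x0 x1 : ℝ) : Prop where
  le : cm * |x0| ≤ -x1
  lo : cm * -x1 ≤ De M a r * x1 + 2 * (r ^ 2 + a ^ 2) * x0
  an : a ^ 2 * x0 ^ 2 ≤ (1 - cm) * (-x1 * (De M a r * x1 + 2 * (r ^ 2 + a ^ 2) * x0))

/-- The gradient of the weight w at p = (t, r) is past directed up to bd. -/
def Wp (cm κ M0 M a : ℝ) (w bd : ℝ × ℝ → ℝ) (p : ℝ × ℝ) : Prop :=
  ∃ x0 x1, C2 cm M a p.2 x0 x1 ∧ κ * w p ≤ -x1 ∧ |fderiv ℝ w p (1, 0) + x0| ≤ bd p ∧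
    |fderiv ℝ w p (-hs M0 (M, a, p.2), 1) + x1| ≤ bd p

/-- The smallness at the point x. -/
def Sml (c : Cs) (E : Est) (n : ℕ) (δ : ℝ) (x : E6) : Prop :=
  (∀ i, q2 (lt (hp _) (E.p1 c)) x 4 (E.d1 c i) ≤ δ ^ 2) ∧ (nq x = 1 → E.eta (n / 2 + 1) x ≤ δ ^ 2)

/-- The estimate below any open set L of levels. -/
def EFIN : Prop := ∀ (M0 r1 ρ cm : ℝ) (n : ℕ), 0 < M0 → 0 < r1 → 0 < cm → cm ≤ 1 → 1 ≤ n →
  ∃ κ C δ : ℝ, 0 < κ ∧ 0 < C ∧ 0 < δ ∧ ∀ (c : Cs) (E : Est), c.M = M0 → c.r1 = r1 →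
    M0 / 2 ≤ E.M → E.Shape c → E.Eqs c → ρ + 1 ≤ c.Rs → ∀ L : Set ℝ, IsOpen L → IsLowerSet L →
    ∀ w bd : ℝ × ℝ → ℝ, ContDiff ℝ ∞ w → ContDiff ℝ ∞ bd → (∀ p, 0 ≤ w p) → (∀ p, 0 ≤ bd p) →
    (∀ x ∈ E.O1, An x → rv E.sig x ∈ L → w (tr x) ≠ 0 ∨ bd (tr x) ≠ 0 →
      Est.Ab c x ∧ x.2.1 ≤ ρ ∧ Wp cm κ M0 E.M E.a w bd (tr x) ∧ Sml c E n δ x) →
    Yz E (fun x => w (tr x) * E.eta n x) {x | rv E.sig x ∈ L} ≤
      ENNReal.ofReal C * Yz E (fun x => bd (tr x) * E.eta n x) {x | rv E.sig x ∈ L}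

end Vale.Agent.P354EF
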