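import Vale.Agent.P354EF.FldO
import Vale.Agent.P354EF.Defs
import Vale.Agent.P354BO.Q2
import Vale.Agent.P354CV.Bas

/-!
The dilations of the spinor, and the integrals over the shell.
-/

open scoped ContDiff ComplexConjugate Topology ENNReal
open MeasureTheory Set Filter

namespace Vale.Agent.P354EF

open P354XG P354XI P354XD P354XR P354BO P354Z

variable {O : Set E6} {x : E6} {t k : ℝ} {u : Sm (on O)}

/-- The dilation. -/
noncomputable def sr (t : ℝ) (x : E6) : E6 := (x.1, x.2.1, t • x.2.2)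

/-- The field of Euler. -/
noncomputable def eu (O : Set E6) : Der (Sm (on O)) := (hp (on O)).H + (hp (on O)).B

theorem eu_ap (u : Sm (on O)) : eu O u = (hp (on O)).H u + (hp (on O)).B u := rfl

theorem sr_mem (c : Cone O) (ht : t ≠ 0) (hx : x ∈ O) : sr t x ∈ O := by
  have := c.hom x hx t (Complex.ofReal_ne_zero.2 ht)
  rwa [Complex.coe_smul] at this

theorem sr_inv (ht : t ≠ 0) (x : E6) : sr t⁻¹ (sr t x) = x := by
  simp [sr, smul_smul, inv_mul_cancel₀ ht]

theorem nq_sr (t : ℝ) (x : E6) : nq (sr t x) = t ^ 2 * nq x := by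
  simp [nq, sr, mul_add, sq]

theorem nq_N (x : E6) : N x.2.2 = nq x := by
  simp [nq, N, Complex.normSq_eq_norm_sq]

theorem an_of (h : χ x.2.2 ≠ 0) : An x := by
  by_contra c
  exact h (χ_out fun d => c ⟨nq_N x ▸ d.1, nq_N x ▸ d.2⟩)

theorem nq_ct : Continuous nq := by
  rw [← funext nq_N]
  exact N_sm.continuous.comp continuous_snd.snd

theorem an_ms : MeasurableSet {x | An x} :=
  ((isClosed_le continuous_const nq_ct).inter (isClosed_le nq_ct continuous_const)).measurableSet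

theorem fd_eu (hO : IsOpen O) (u : Sm (on O)) (hx : x ∈ O) :
    fderiv ℝ (fv u) x (0, 0, x.2.2) = fv (eu O u) x := by
  rw [fd_all hO u hx, eu_ap]
  simp [Hp.H_ap, Hp.B_ap, fv_add, fv_mul, fv_z _ hx, zc, Fin.sum_univ_six, add_assoc]

theorem orb (c : Cone O) (hu : eu O u = (k : ℂ) • u) (s : ℝ) (x : E6) :
    fv u (sr (Real.exp s) x) = Real.exp (k * s) * fv u x := by
  by_cases a : x ∈ O
  swap
  · rw [fv_out _ a, mul_zero, fv_out]
    exact fun b => a (sr_inv (Real.exp_ne_zero s) x ▸ sr_mem c (inv_ne_zero (Real.exp_ne_zero s)) b)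
  have d : ∀ t : ℝ, HasDerivAt (fun t : ℝ => (Real.exp (-k * t) : ℂ) *
      fv u (sr (Real.exp t) x)) 0 t := fun t => by
    have m := sr_mem c (Real.exp_ne_zero t) a
    refine ((((hasDerivAt_id t).const_mul (-k)).exp.ofReal_comp).mul
      (((fv_sm c.op u m).differentiableAt (by simp)).hasFDerivAt.comp_hasDerivAt
      t ((hasDerivAt_const t x.1).prodMk ((hasDerivAt_const t x.2.1).prodMk
        ((Real.hasDerivAt_exp t).smul_const x.2.2))))).congr_deriv ?_
    have := fd_eu c.op u m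
    rw [hu, fv_smul] at this
    erw [this]
    simp only [Function.comp_apply, id, sr, fv]
    push_cast
    ring
  have := is_const_of_deriv_eq_zero (fun t => (d t).differentiableAt) (fun t => (d t).deriv) s 0
  simp only [mul_zero, Real.exp_zero, Complex.ofReal_one, one_mul, show sr 1 x = x by simp [sr]]
    at this
  rw [← this, ← mul_assoc, ← Complex.ofReal_mul, ← Real.exp_add]
  simp

theorem orb0 (c : Cone O) (hu : eu O u = 0) (ht : 0 < t) (x : E6) : fv u (sr t x) = fv u x := by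
  have := orb (k := 0) c (by simpa using hu) (Real.log t) x
  rwa [Real.exp_log ht, zero_mul, Real.exp_zero, Complex.ofReal_one, one_mul] at this

theorem base_eu (c : Cone O) (b : Base u) : (hp (on O)).B u = 0 ∧ eu O u = 0 := by
  have := (P354CV.cone_hp c).c_H u
  rw [b.H, map_zero, show (hp (on O)).c u = u from b.re] at this
  exact ⟨this.symm, by rw [eu_ap, b.H, ← this, add_zero]⟩

theorem q2_hom {ι : Type} [Fintype ι] (c : Cone O) {X : ι → Der (Sm (on O))} {l : ι → ℝ}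
    (h : ∀ a f, eu O (X a f) = X a (eu O f) + (l a : ℂ) • X a f) (hl : ∀ a, |l a| ≤ 2) (s : ℝ)
    (x : E6) : ∀ (n : ℕ) (u : Sm (on O)) (k : ℝ), eu O u = (k : ℂ) • u →
      q2 X (sr (Real.exp s) x) n u ≤ Real.exp (|s| * (|k| + 2 * n)) ^ 2 * q2 X x n u
  | 0, u, k, hu => by
    rw [q2, q2, orb c hu, norm_mul, mul_pow, Complex.norm_real, Real.norm_eq_abs, Real.abs_exp]
    refine mul_le_mul_of_nonneg_right (pow_le_pow_left₀ (Real.exp_pos _).le
      (Real.exp_le_exp.2 ?_) 2) (sq_nonneg _)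
    rw [Nat.cast_zero, mul_zero, add_zero, mul_comm |s|, ← abs_mul]
    exact le_abs_self _
  | n + 1, u, k, hu => by
    rw [q2_succ, q2_succ, mul_add, Finset.mul_sum]
    refine add_le_add ((q2_hom c h hl s x n u k hu).trans ?_) (Finset.sum_le_sum fun a _ =>
      (q2_hom c h hl s x n _ (k + l a) (by
        rw [h, hu, Derivation.map_smul, Complex.ofReal_add, add_smul])).trans ?_)
    · have := q2_nonneg X x n u
      gcongr
      omega
    · refine mul_le_mul_of_nonneg_right (pow_le_pow_left₀ (Real.exp_pos _).le (Real.exp_le_exp.2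
        (mul_le_mul_of_nonneg_left ?_ (abs_nonneg s))) 2) (q2_nonneg X x n _)
      push_cast
      linarith [abs_add_le k (l a), hl a]

/-- The jets at a point of the shell and at the unit spinor. -/
theorem eta_hom {c : Cs} {E : Est} (h : E.Shape c) (q : E.Eqs c) (n : ℕ) {s : ℝ} (hs : |s| ≤ 1)
    (x : E6) : E.eta n (sr (Real.exp s) x) ≤ Real.exp (4 + 2 * n) ^ 2 * E.eta n x := by
  have g := P354CV.G1_is h q
  have e : ∀ f, eu E.O1 f = E.G1.H f + E.G1.Hb f := fun _ => rfl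
  have k := q2_hom h.co1 (X := f4 E.G1) (l := ![2, -2, 0, 0]) (fun a f => by
    fin_cases a <;> simp [e, f4, g.H_th, g.Hb_th, g.H_tp, g.Hb_tp, g.H_et, g.Hb_et, g.H_ep,
      g.Hb_ep, two_smul] <;> ring) (fun a => by fin_cases a <;> simp) s x n
  have b : ∀ k : ℝ, |k| = 4 → Real.exp (|s| * (|k| + 2 * n)) ^ 2 ≤ Real.exp (4 + 2 * n) ^ 2 :=
    fun k hk => by
    gcongr
    rw [hk]
    exact mul_le_of_le_one_left (by positivity) hs
  rw [Est.eta, Est.eta, mul_add]
  exact add_le_add ((k _ 4 (by simp [e, g.H_P0, g.Hb_P0, Algebra.smul_def, map_ofNat])).trans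
    (mul_le_mul_of_nonneg_right (b 4 (by simp)) (q2_nonneg _ _ _ _)))
    ((k _ (-4) (by simp [e, g.H_P4, g.Hb_P4, Algebra.smul_def, map_ofNat])).trans
      (mul_le_mul_of_nonneg_right (b (-4) (by simp)) (q2_nonneg _ _ _ _)))

theorem ex_unit' (h : An x) : ∃ s, |s| ≤ 1 ∧ nq (sr (Real.exp (-s)) x) = 1 ∧
    sr (Real.exp s) (sr (Real.exp (-s)) x) = x := by
  have p : 0 < nq x := by linarith [h.1]
  refine ⟨Real.log (nq x) / 2, ?_, ?_, ?_⟩
  · have a := Real.log_le_sub_one_of_pos p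
    have b := Real.one_sub_inv_le_log_of_pos p
    have c : (nq x)⁻¹ ≤ 2 := by rw [inv_le_comm₀ p two_pos]; linarith [h.1]
    rw [abs_le]
    constructor <;> linarith [h.2]
  · rw [nq_sr, ← Real.exp_nat_mul, show ((2 : ℕ) : ℝ) * -(Real.log (nq x) / 2) = -Real.log (nq x) by
      push_cast; ring, Real.exp_neg, Real.exp_log p, inv_mul_cancel₀ p.ne']
  · simp [sr, smul_smul, ← Real.exp_add]

theorem int_sr (ht : t ≠ 0) : ∃ C : ℝ, 0 ≤ C ∧ ∀ (S : Set E6) (F : E6 → ℝ≥0∞),
    ∫⁻ x in sr t ⁻¹' S, F (sr t x) = ENNReal.ofReal C * ∫⁻ x in S, F x := by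
  let e : E6 ≃L[ℝ] E6 := (ContinuousLinearEquiv.refl ℝ ℝ).prodCongr
    ((ContinuousLinearEquiv.refl ℝ ℝ).prodCongr (ContinuousLinearEquiv.smulLeft (Units.mk0 t ht)))
  have m := e.toHomeomorph.measurableEmbedding
  refine ⟨_, abs_nonneg (LinearMap.det (e.toLinearEquiv : E6 →ₗ[ℝ] E6))⁻¹, fun S F =>
    ((m.lintegral_map F).symm.trans
    (congrArg (lintegral · F) (m.restrict_map volume S).symm)).trans ?_⟩
  rw [show Measure.map e.toHomeomorph volume = _ from
    Measure.map_linearMap_addHaar_eq_smul_addHaar volume (f := (e.toLinearEquiv : E6 →ₗ[ℝ] E6))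
      (LinearEquiv.isUnit_det' _).ne_zero, Measure.restrict_smul, lintegral_smul_measure]
  rfl

/-- The integral over the shell of an invariant function. -/
theorem shell : ∃ C : ℝ, 0 < C ∧ ∀ (O : Set E6) (c : Cone O) (F : Sm (on O)), F ∈ (BO c.op).K →
    eu O F = 0 → (∀ x, 0 ≤ (fv F x).re) →
    ∫⁻ x in {x | An x}, ENNReal.ofReal (fv F x).re ≤ ENNReal.ofReal (C * (BO c.op).J F) := by
  obtain ⟨C1, c1, h1⟩ := int_sr (t := 5 / 4) (by norm_num)
  obtain ⟨C2, c2, h2⟩ := int_sr (t := 4 / 5) (by norm_num)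
  refine ⟨1 + C1 + C2, by positivity, fun O c F hK h0 hp => ?_⟩
  have s : {x | An x} ⊆ {x | nq x ∈ Icc (3 / 4 : ℝ) (5 / 4)} ∪
      sr (5 / 4) ⁻¹' {x | nq x ∈ Icc (3 / 4 : ℝ) (5 / 4)} ∪
      sr (4 / 5) ⁻¹' {x | nq x ∈ Icc (3 / 4 : ℝ) (5 / 4)} := fun x hx => by
    simp only [mem_union, mem_preimage, mem_ofPred, nq_sr, mem_Icc]
    rcases le_total (nq x) (3 / 4) with a | a
    · exact .inl (.inr ⟨by linarith [hx.1], by linarith⟩)
    rcases le_total (nq x) (5 / 4) with b | b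
    · exact .inl (.inl ⟨a, b⟩)
    · exact .inr ⟨by linarith, by linarith [hx.2]⟩
  have e1 := h1 {x | nq x ∈ Icc (3 / 4 : ℝ) (5 / 4)} fun x => ENNReal.ofReal (fv F x).re
  have e2 := h2 {x | nq x ∈ Icc (3 / 4 : ℝ) (5 / 4)} fun x => ENNReal.ofReal (fv F x).re
  simp only [orb0 c h0 (show (0 : ℝ) < 5 / 4 by norm_num),
    orb0 c h0 (show (0 : ℝ) < 4 / 5 by norm_num)] at e1 e2
  have b : ∫⁻ x in {x | nq x ∈ Icc (3 / 4 : ℝ) (5 / 4)}, ENNReal.ofReal (fv F x).re ≤
      ENNReal.ofReal ((BO c.op).J F) := by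
    rw [BO_J c.op hK, ofReal_integral_eq_lintegral_ofReal (BO_int c.op hK)
      (Eventually.of_forall fun x => mul_nonneg (sq_nonneg _) (hp x))]
    refine (setLIntegral_mono' (isClosed_Icc.preimage nq_ct).measurableSet fun x hx => ?_).trans
      (setLIntegral_le_lintegral _ _)
    rw [χ, bu.one_of_mem_closedBall, one_pow, one_mul]
    rw [nq_N, Metric.mem_closedBall, Real.dist_eq, abs_le, show bu.rIn = 1 / 4 from rfl]
    constructor <;> linarith [hx.1, hx.2]
  refine ((lintegral_mono_set s).trans ((lintegral_union_le _ _ _).trans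
    (add_le_add_left (lintegral_union_le _ _ _) _))).trans ?_
  rw [e1, e2, ENNReal.ofReal_mul (by positivity), ENNReal.ofReal_add (by positivity) c2,
    ENNReal.ofReal_add zero_le_one c1, add_mul, add_mul, ENNReal.ofReal_one, one_mul]
  gcongr

theorem shell' (hO : IsOpen O) {F : Sm (on O)} (hK : F ∈ (BO hO).K) (hp : ∀ x, 0 ≤ (fv F x).re)
    {S : Set E6} (hS : MeasurableSet S) {g : E6 → ℝ}
    (h : ∀ x ∈ O, An x → (fv F x).re ≠ 0 → x ∈ S ∧ (fv F x).re ≤ g x) :
    ENNReal.ofReal ((BO hO).J F) ≤ ∫⁻ x in S, ENNReal.ofReal (g x) := by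
  rw [BO_J hO hK, ofReal_integral_eq_lintegral_ofReal (BO_int hO hK)
    (Eventually.of_forall fun x => mul_nonneg (sq_nonneg _) (hp x)), ← lintegral_indicator hS]
  refine lintegral_mono fun x => ?_
  by_cases a : χ x.2.2 = 0
  · simp [a]
  by_cases b : (fv F x).re = 0
  · simp [b]
  have := h x (by_contra fun c => b (by simp [fv_out _ c])) (an_of a) b
  rw [indicator_of_mem this.1]
  exact ENNReal.ofReal_le_ofReal ((mul_le_of_le_one_left (hp x)
    (pow_le_one₀ (χ_nonneg _) (χ_le _))).trans this.2)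

end Vale.Agent.P354EF
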