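import Vale.Agent.P354MG.Parts
import Vale.Agent.P354XM.Kin
import Vale.Agent.P354YT.Chart
import Vale.Agent.P354CV.Bas
import Vale.Agent.P354YI.Met
import Vale.Agent.P354YO.Sh
import Vale.Agent.P354YQ.Jet
import Vale.Agent.P354XT.Calc

/-!
The Kerr metric in the straight chart, and the transport of jets along the rays.
-/

set_option maxSynthPendingDepth 3

open scoped ContDiff
open Set Filter Topology

noncomputable section

namespace Vale.Agent.P354EF

open Vale.Agent.P354n (R4)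
open Vale.Agent.P354R (Del)
open Vale.Agent.P354RC (B2)
open Vale.Agent.P354XD (tb)
open Vale.Agent.P354XE (Tw gin rd eT dr Lo Om pb)
open Vale.Agent.P354XA (ip rd_cd rd_fd dr_eq rd_sq rd_cont gin_bil)
open Vale.Agent.P354XM (rot rot_ap hin_sh hin_ap)
open Vale.Agent.P354YI
open Vale.Agent.P354YO (sh IsTh pr0 shell_cpt tb_ap bil_pb rd_sh)
open Vale.Agent.P354Z (hs js)
open Vale.Agent.P354MG

variable {A B : ℝ → ℝ} {p : R4} {α β M0 M a : ℝ}

theorem sh_fd (h : rd p ≠ 0) (hA : HasDerivAt A α (rd p)) (hB : HasDerivAt B β (rd p)) (v : R4) :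
    fderiv ℝ (sh A B) p v = rot (B (rd p)) (v + dr p v • (α • eT + β • Om 2 p)) := by
  have r := ((rd_cd (n := 1) h).differentiableAt one_ne_zero).hasFDerivAt
  have a := (hasFDerivAt_fst (𝕜 := ℝ)).add (hA.comp_hasFDerivAt p r)
  have b := hB.comp_hasFDerivAt p r
  have k := P354YT.pol_fd (m := fun _ => 1) a.differentiableAt (differentiableAt_const _)
    b.differentiableAt v
  rw [a.fderiv, b.fderiv] at k
  refine (congrArg (fderiv ℝ · p v) (funext fun x => by simp [sh, P354YT.pol])).trans (k.trans ?_)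
  simp [P354YT.pol, rot_ap, P354XM.sh, rd_fd h, eT, Om]
  exact ⟨by ring, by ring, by ring⟩

theorem sh_det (h : rd p ≠ 0) (hA : HasDerivAt A α (rd p)) (hB : HasDerivAt B β (rd p)) :
    LinearMap.det (fderiv ℝ (sh A B) p : R4 →ₗ[ℝ] R4) = 1 := by
  rw [P354YT.det_pol (p := p) (A := 1) (B := α / rd p) (E := 0) (D := 0) (K := β / rd p) (m := 1)
    (c := B (rd p)) fun v => ?_]
  · simp
  · refine (sh_fd h hA hB v).trans ?_
    simp [P354YT.pol, rot_ap, P354XM.sh, dr_eq, eT, Om, ip]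
    refine ⟨by ring, by ring, by ring⟩

/-- The derivative of the straight chart up to a rotation, and the Kerr metric in this chart. -/
def Lx (M0 : ℝ) (z : ℝ × ℝ × R4) : R4 →L[ℝ] R4 :=
  .id ℝ R4 + (fderiv ℝ rd z.2.2).smulRight
    ((hs M0 (z.1, z.2.1, rd z.2.2) - 1 + 4 * M0 ^ 2 / rd z.2.2 ^ 2) • eT +
      (2 * js M0 (z.1, z.2.1, rd z.2.2)) • Om 2 z.2.2)
def kx (M0 : ℝ) (z : ℝ × ℝ × R4) : B2 := pl (tb (gin z.1 z.2.1) z.2.2) (Lx M0 z) (Lx M0 z)

theorem st_d (t : IsTh M0 M a A B) {r : ℝ} (h : r ≠ 0) :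
    HasDerivAt (fun r => A r - 4 * M0 ^ 2 / r) (hs M0 (M, a, r) - 1 + 4 * M0 ^ 2 / r ^ 2) r :=
  ((t r).1.sub ((hasDerivAt_const r (4 * M0 ^ 2)).div (hasDerivAt_id r) h)).congr_deriv (by
    simp only [id]; ring)

theorem st_fd (t : IsTh M0 M a A B) (h : rd p ≠ 0) (v : R4) :
    fderiv ℝ (st4 M0 A B) p v = rot (B (rd p)) (Lx M0 (M, a, p) v) := by
  rw [st4, sh_fd h (st_d t h) (t _).2, ← rd_fd h]; rfl

theorem st_det (t : IsTh M0 M a A B) (h : rd p ≠ 0) :
    LinearMap.det (fderiv ℝ (st4 M0 A B) p : R4 →ₗ[ℝ] R4) = 1 := sh_det h (st_d t h) (t _).2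

theorem th_cd (h0 : 0 < M0) (t : IsTh M0 M a A B) : ContDiff ℝ ∞ A ∧ ContDiff ℝ ∞ B := by
  refine ⟨contDiff_infty_iff_deriv.2 ⟨fun r => (t r).1.differentiableAt, ?_⟩,
    contDiff_infty_iff_deriv.2 ⟨fun r => (t r).2.differentiableAt, ?_⟩⟩
  · rw [funext fun r => (t r).1.deriv]
    exact ((P354CV.hs_cd h0).comp (by fun_prop)).sub contDiff_const
  · rw [funext fun r => (t r).2.deriv]
    exact contDiff_const.mul ((P354CV.js_cd h0).comp (by fun_prop))

theorem st_cd (h0 : 0 < M0) (t : IsTh M0 M a A B) (h : rd p ≠ 0) : ContDiffAt ℝ ∞ (st4 M0 A B) p :=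
  P354YO.sh_cd h ((th_cd h0 t).1.contDiffAt.sub (contDiffAt_const.div contDiffAt_id h))
    (th_cd h0 t).2.contDiffAt

theorem rd_st4 (M0 : ℝ) (A B : ℝ → ℝ) (p : R4) : rd (st4 M0 A B p) = rd p := rd_sh _ _ p

/-- The Kerr metric in the straight chart does not depend on the choice of A and B. -/
theorem kS_ap (t : IsTh M0 M a A B) (h : rd p ≠ 0) (v w : R4) :
    kS M0 M a A B p v w = kx M0 (M, a, p) v w := by
  rw [kS, pb, st_fd t h, st_fd t h, ← hin_ap (M, a)]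
  exact ((hin_sh (M, a) _ _ p _ _).trans (hin_ap _ _ _ _)).trans (tb_ap (gin_bil _ _ _) _ _).symm

theorem kS_tb (t : IsTh M0 M a A B) (h : rd p ≠ 0) : tb (kS M0 M a A B) p = kx M0 (M, a, p) :=
  ContinuousLinearMap.ext fun v => ContinuousLinearMap.ext fun w =>
    (tb_ap (bil_pb (gin_bil _ _ _)) v w).trans (kS_ap t h v w)

theorem Lx_cd (h0 : 0 < M0) {z : ℝ × ℝ × R4} (h : 0 < rd z.2.2) : ContDiffAt ℝ ∞ (Lx M0) z := by
  have r : ContDiffAt ℝ ∞ (fun z : ℝ × ℝ × R4 => rd z.2.2) z :=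
    at_comp (G := rd) (rd_cd h.ne') contDiffAt_snd.snd
  have q := contDiffAt_fst.prodMk (contDiffAt_snd.fst.prodMk r)
  refine contDiffAt_const.add (at_bil (ContinuousLinearMap.smulRightL ℝ R4 R4)
    ((at_fd (rd_cd h.ne')).comp z contDiffAt_snd.snd) (((((((P354CV.hs_cd h0).contDiffAt.comp z
      q).sub contDiffAt_const).add (contDiffAt_const.div (r.pow 2) (pow_ne_zero 2 h.ne'))).smul
      contDiffAt_const)).add ((contDiffAt_const.mul ((P354CV.js_cd h0).contDiffAt.comp z q)).smul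
      ?_)))
  show ContDiffAt ℝ ∞ (fun z : ℝ × ℝ × R4 => ((0, -z.2.2.2.2.1, z.2.2.2.1, 0) : R4)) z
  fun_prop

theorem kx_cd (h0 : 0 < M0) {z : ℝ × ℝ × R4} (h : 0 < rd z.2.2) : ContDiffAt ℝ ∞ (kx M0) z := by
  have g : ContDiffAt ℝ ∞ (fun z : ℝ × ℝ × R4 => tb (gin z.1 z.2.1) z.2.2) z :=
    ContDiffAt.sum fun _ _ => ContDiffAt.sum fun _ _ => (P354YR.s_gin contDiffAt_snd.snd
      (P354YR.xs_ne h) contDiffAt_fst contDiffAt_snd.fst _ _).smul contDiffAt_const
  have f := (ContinuousLinearMap.flipₗᵢ ℝ R4 R4 ℝ).toContinuousLinearEquiv.contDiff (n := ∞)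
  exact f.contDiffAt.comp z ((f.contDiffAt.comp z (g.clm_comp (Lx_cd h0 h))).clm_comp (Lx_cd h0 h))

/-- The projection to t = 0. -/
def pz : ℝ × ℝ × R4 →L[ℝ] ℝ × ℝ × R4 :=
  (ContinuousLinearMap.id ℝ ℝ).prodMap ((ContinuousLinearMap.id ℝ ℝ).prodMap pr0)

theorem kx_pz (M0 : ℝ) {z : ℝ × ℝ × R4} (h : rd z.2.2 ≠ 0) : kx M0 (pz z) = kx M0 z := by
  have e : fderiv ℝ rd (pr0 z.2.2) = fderiv ℝ rd z.2.2 :=
    ContinuousLinearMap.ext fun v => (rd_fd (p := pr0 z.2.2) h v).trans (rd_fd h v).symm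
  have : Lx M0 (pz z) = Lx M0 z := by
    show _ + (fderiv ℝ rd (pr0 z.2.2)).smulRight _ = _
    rw [e]; rfl
  rw [kx, this]; rfl

/-- The parameters and the points of a shell. -/
def Zk (M a r0 R2 : ℝ) : Set (ℝ × ℝ × R4) := {z | z.1 ∈ Icc (M - 1) (M + 1) ∧
  z.2.1 ∈ Icc (a - 1) (a + 1) ∧ r0 ≤ rd z.2.2 ∧ rd z.2.2 ≤ R2}

theorem os_pz {J V : Type} [NormedAddCommGroup V] [NormedSpace ℝ V] {F : ℝ × ℝ × R4 → V}
    (hF : ∀ z, 0 < rd z.2.2 → ContDiffAt ℝ ∞ F z) (e : ∀ z, rd z.2.2 ≠ 0 → F (pz z) = F z)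
    (M a : ℝ) {r0 : ℝ} (h0 : 0 < r0) (R2 : ℝ) (m : ℕ) :
    Os m (fun _ : J => Zk M a r0 R2) (fun _ => F) 1 :=
  (Oj.comp (f := fun _ => pz) (fun _ => pz.contDiff.contDiffAt) m (G := fun _ => F)
    ((Oj.cst pz).congr' fun _ _ => pz.fderiv)
    (Oj.fix ((isCompact_Icc (a := M - 1) (b := M + 1)).prod
      ((isCompact_Icc (a := a - 1) (b := a + 1)).prod (shell_cpt r0 R2)))
      (fun z hz => hF z (h0.trans_le hz.2.2.2.1))
      fun j => mem_prod.2 ⟨j.2.1, mem_prod.2 ⟨j.2.2.1, rfl, j.2.2.2⟩⟩)).congr fun j =>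
    ((rd_cont.comp continuous_snd.snd).continuousAt.eventually_ne
      (h0.trans_le j.2.2.2.1).ne').mono fun z hz => (e z hz).symm

/-- The jets of the Kerr metrics in the straight chart are bounded. -/
theorem os_kx {J : Type} (h : 0 < M0) (M a : ℝ) {r0 : ℝ} (h0 : 0 < r0) (R2 : ℝ) (m : ℕ) :
    Os m (fun _ : J => Zk M a r0 R2) (fun _ => kx M0) 1 :=
  os_pz (fun _ => kx_cd h) (fun _ => kx_pz M0) M a h0 R2 m

theorem dr_er (h : rd p ≠ 0) : dr p (er4 p) = 1 := by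
  have := rd_sq p
  rw [dr_eq, div_eq_one_iff_eq h]
  simp only [ip, er4, Prod.smul_fst, Prod.smul_snd, smul_eq_mul] at this ⊢
  field_simp
  linarith

/-- The radial field is mapped to the outgoing principal null field. -/
theorem st_er (h0 : 0 < M0) (t : IsTh M0 M a A B) (hM : M ≤ 3 / 2 * M0) (h : 6 * M0 ≤ rd p) :
    fderiv ℝ (st4 M0 A B) p (er4 p) = Lo M a (st4 M0 A B p) := by
  have r0 : rd p ≠ 0 := (show 0 < rd p by linarith).ne'
  have c : P354Z.cut M0 (M, a, rd p) = 1 := by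
    rw [P354Z.cut, P354XT.up_one (by linarith) h, P354XT.dn_one (by linarith) hM, one_mul]
  rw [st4, sh_fd r0 (st_d t r0) (t _).2, dr_er r0, Lo, rd_sh]
  simp only [hs, js, c, P354BF.De, Del, rot_ap, P354XM.sh, sh, er4, eT, Om]
  ext <;> simp <;> ring

theorem er_cd (h : 0 < rd p) : ContDiffAt ℝ ∞ er4 p :=
  contDiffAt_const.prodMk (((rd_cd h.ne').inv h.ne').smul contDiffAt_snd)

theorem rd_ray {s : ℝ} (h : 0 < rd p) (hs : 0 ≤ s) : rd (ray s p) = s := by
  have := rd_sq p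
  rw [← sq_eq_sq₀ (P354XA.rd_nonneg _) hs, rd_sq]
  simp only [ip, ray, Prod.smul_fst, Prod.smul_snd, smul_eq_mul] at this ⊢
  field_simp
  linear_combination -s ^ 2 * this

theorem er_ray {s : ℝ} (h : 0 < rd p) (hs : 0 < s) : er4 (ray s p) = er4 p := by
  rw [er4, rd_ray h hs.le, ray, er4, smul_smul]
  congr 2
  field_simp

theorem ray_self (h : 0 < rd p) : ray (rd p) p = p := by rw [ray, div_self h.ne', one_smul]

theorem ray_d (p : R4) (s : ℝ) : HasDerivAt (fun s => ray s p) (er4 p) s := by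
  simpa [ray, er4, div_eq_mul_inv] using (hasDerivAt_const s p.1).prodMk
    (((hasDerivAt_id s).div_const (rd p)).smul_const p.2)

theorem er_er (h : 0 < rd p) : fderiv ℝ er4 p (er4 p) = 0 := by
  have a := ((er_cd h).differentiableAt (by simp)).hasFDerivAt
  rw [← ray_self h] at a
  have b := a.comp_hasDerivAt (rd p) (ray_d p (rd p))
  rw [ray_self h] at b
  exact b.unique ((hasDerivAt_const _ (er4 p)).congr_of_eventuallyEq
    ((lt_mem_nhds h).mono fun s hs => er_ray h hs))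

/-- The part of the ray through q between the radius R and q. -/
def Sr (R : ℝ) (q : R4) : Set R4 := (fun s => ray s q) '' Icc R (rd q)

theorem sr_rd {R : ℝ} {q y : R4} (h : 0 < R) (hy : y ∈ Sr R q) : R ≤ rd y ∧ rd y ≤ rd q := by
  obtain ⟨s, hs, rfl⟩ := hy
  rwa [rd_ray (h.trans_le (hs.1.trans hs.2)) (h.le.trans hs.1)]

/-- The transport of jets along the rays. -/
theorem oj_ray {J : Type} {q : J → R4} {R ρ : ℝ} {μ : J → ℝ} (h : 0 < R)
    (hq : ∀ j, R ≤ rd (q j) ∧ rd (q j) ≤ ρ) (n : ℕ) :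
    ∀ {V : Type} [NormedAddCommGroup V] [NormedSpace ℝ V] {W f : J → R4 → V}
      {L : J → R4 → V →L[ℝ] V}, (∀ j, ∀ y ∈ Sr R (q j), ContDiffAt ℝ ∞ (W j) y ∧
        ∀ᶠ x in 𝓝 y, fderiv ℝ (W j) x (er4 x) = L j x (W j x) + f j x) →
      Os n (fun j => Sr R (q j)) L 1 → Os n (fun j => Sr R (q j)) f μ →
      Oj n (fun j => ray R (q j)) W μ → Os n (fun j => Sr R (q j)) W μ := by
  have base : ∀ {V : Type} [NormedAddCommGroup V] [NormedSpace ℝ V] {W f : J → R4 → V}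
      {L : J → R4 → V →L[ℝ] V} {n : ℕ}, (∀ j, ∀ y ∈ Sr R (q j), ContDiffAt ℝ ∞ (W j) y ∧
        ∀ᶠ x in 𝓝 y, fderiv ℝ (W j) x (er4 x) = L j x (W j x) + f j x) →
      Os n (fun j => Sr R (q j)) L 1 → Os n (fun j => Sr R (q j)) f μ →
      Oj n (fun j => ray R (q j)) W μ → Os 0 (fun j => Sr R (q j)) W μ := by
    intro V _ _ W f L n hW hL hf h0
    obtain ⟨C, c0, hC⟩ := hL.bd
    obtain ⟨D, d0, hD⟩ := hf.bd
    obtain ⟨E, e0, hE⟩ := h0.val
    refine .zero (fun i => (hW _ _ i.2).1) hf.nn ⟨(E + D * ρ) * Real.exp (C * ρ), ?_⟩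
    rintro ⟨⟨j, y⟩, s, hs, e⟩
    obtain rfl : ray s (q j) = y := e
    have m := h0.nn j
    have d : ∀ t ∈ Icc R (rd (q j)), HasDerivAt (fun t => W j (ray t (q j)))
        (L j (ray t (q j)) (W j (ray t (q j))) + f j (ray t (q j))) t := fun t ht => by
      have k := hW j _ ⟨t, ht, rfl⟩
      rw [← k.2.self_of_nhds, er_ray (h.trans_le (hq j).1) (h.trans_le ht.1)]
      exact (k.1.differentiableAt (by simp)).hasFDerivAt.comp_hasDerivAt t (ray_d _ t)
    have k := norm_le_gronwallBound_of_norm_deriv_right_le (K := C) (ε := D * μ j) (δ := E * μ j)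
      (fun t ht => (d t ht).continuousAt.continuousWithinAt)
      (fun t ht => (d t (Ico_subset_Icc_self ht)).hasDerivWithinAt) (hE j) (fun t ht => by
        have u : ray t (q j) ∈ Sr R (q j) := ⟨t, Ico_subset_Icc_self ht, rfl⟩
        exact norm_add_le_of_le ((ContinuousLinearMap.le_opNorm _ _).trans
          (mul_le_mul_of_nonneg_right ((hC j _ u).zero.trans (mul_one C).le) (norm_nonneg _)))
          (hD j _ u).zero) s hs
    have s1 : s - R ≤ ρ := by linarith [hs.2, (hq j).2]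
    have s0 : 0 ≤ s - R := by linarith [hs.1]
    refine k.trans ((P354YQ.gb_le c0 (by positivity)).trans ?_)
    have s2 := s0.trans s1
    show _ ≤ _ * μ j
    rw [mul_right_comm (E + D * ρ), add_mul E, mul_right_comm D ρ]
    gcongr
  induction n with
  | zero => exact fun hW hL hf h0 => base hW hL hf h0
  | succ n ih =>
    intro V _ _ W f L hW hL hf h0
    have k := ih hW hL.pred hf.pred h0.pred
    have r : ∀ i : {i : J × R4 // i.2 ∈ Sr R (q i.1)}, R ≤ rd i.1.2 ∧ rd i.1.2 ≤ ρ := fun i =>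
      (sr_rd h i.2).imp_right fun u => u.trans (hq _).2
    have e : Os n (fun j => Sr R (q j)) (fun _ => fderiv ℝ er4) 1 :=
      (P354YO.oj_st (m := n + 1) (F := er4) h r fun _ => er_cd).fd
    refine (base hW hL hf h0).succ (ih (L := fun j x => ContinuousLinearMap.compL ℝ R4 V V (L j x) -
        (ContinuousLinearMap.compL ℝ R4 R4 V).flip (fderiv ℝ er4 x))
      (f := fun j x => (fderiv ℝ (L j) x).flip (W j x) + fderiv ℝ (f j) x) (fun j y hy => ?_)
      ((hL.pred.clm _).sub (e.clm _)) ?_ h0.fd)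
    · obtain ⟨s, u⟩ := hW j y hy
      refine ⟨at_fd s, ?_⟩
      filter_upwards [u.eventually_nhds, (s.of_le (le_inf 2)).eventually (by simp),
        ev_dif (hL.sm ⟨(j, y), hy⟩), ev_dif (hf.sm ⟨(j, y), hy⟩),
        ev_dif (er_cd (h.trans_le (sr_rd h hy).1))] with x u1 u2 u3 u4 u5
      have d1 := u2.differentiableAt (by simp)
      have d2 : DifferentiableAt ℝ (fderiv ℝ (W j)) x :=
        (u2.fderiv_right (m := 1) (by norm_num)).differentiableAt one_ne_zero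
      have k1 := (d2.hasFDerivAt.clm_apply u5.hasFDerivAt).unique
        (((u3.hasFDerivAt.clm_apply d1.hasFDerivAt).add u4.hasFDerivAt).congr_of_eventuallyEq u1)
      refine ContinuousLinearMap.ext fun v => ?_
      have k2 := congrArg (· v) k1
      have k3 := u2.isSymmSndFDerivAt (by simp) v (er4 x)
      simp only [add_apply, sub_apply, ContinuousLinearMap.comp_apply,
        ContinuousLinearMap.flip_apply, ContinuousLinearMap.compL_apply] at k2 ⊢
      rw [← k3, eq_sub_of_add_eq' k2]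
      abel
    · exact (((hL.fd.clm (ContinuousLinearMap.flipₗᵢ ℝ R4 V
        V).toContinuousLinearEquiv.toContinuousLinearMap).apr k).add hf.fd :)

end Vale.Agent.P354EF
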