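import Vale.Agent.P354EF.Ph

/-!
Functions of a real element, and the weights.
-/

open scoped ContDiff Topology
open Set Filter

noncomputable section

namespace Vale.Agent.P354EF

open P354XG P354XI P354XD P354XR P354BO P354Z P354XT P354FN

variable {O : Set E6} {ψ : ℝ → ℝ} {u F : Sm (on O)} {x : E6}

/-- The function psi of u. -/
def cp (ψ : ℝ → ℝ) (u : Sm (on O)) : Sm (on O) := gm _ fun p => (ψ (rv u p.2) : ℂ)

variable (hO : IsOpen O)
include hO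

theorem rv_sm (u : Sm (on O)) (hx : x ∈ O) : ContDiffAt ℝ ∞ (rv u) x :=
  Complex.reCLM.contDiff.contDiffAt.comp x (fv_sm hO u hx)

theorem rv_open (u : Sm (on O)) {L : Set ℝ} (hL : IsOpen L) : IsOpen {x | x ∈ O ∧ rv u x ∈ L} :=
  ContinuousOn.isOpen_inter_preimage (fun _ hx => (rv_sm hO u hx).continuousAt.continuousWithinAt)
    hO hL

theorem fv_cp (h : ContDiff ℝ ∞ ψ) (u : Sm (on O)) (hx : x ∈ O) : fv (cp ψ u) x = ψ (rv u x) :=
  (fv_in _ hx).trans (ev_on (rs_gm (G := on O) (f := fun p => (ψ (rv u p.2) : ℂ))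
    (on_of hO fun x hx => Complex.ofRealCLM.contDiff.contDiffAt.comp x
      (h.contDiffAt.comp x (rv_sm hO u hx)))) hx)

theorem re_cp (h : ContDiff ℝ ∞ ψ) (u : Sm (on O)) : cj (cp ψ u) = cp ψ u :=
  ext_fv hO fun _ hx => by rw [fv_cj, fv_cp hO h u hx, Complex.conj_ofReal]

omit hO in
theorem fv_re (r : cj u = u) (x : E6) : fv u x = rv u x := by
  have := fv_cj u x
  rw [r] at this
  exact (Complex.conj_eq_iff_re.1 this.symm).symm

theorem fd_cp (h : ContDiff ℝ ∞ ψ) (r : cj u = u) (hx : x ∈ O) (v : E6) :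
    fderiv ℝ (fv (cp ψ u)) x v = deriv ψ (rv u x) * fderiv ℝ (fv u) x v := by
  have d := ((rv_sm hO u hx).differentiableAt (by simp)).hasFDerivAt
  rw [fd_of hO (g := fun x => (ψ (rv u x) : ℂ)) (fun _ => fv_cp hO h u) hx, funext (fv_re r),
    (Complex.ofRealCLM.hasFDerivAt.comp x d).fderiv.symm.symm.trans rfl |> fun e =>
      show fderiv ℝ (fun x => (rv u x : ℂ)) x = _ from e]
  refine (congrArg (· v) (Complex.ofRealCLM.hasFDerivAt.comp x
    ((h.differentiable (by simp) _).hasDerivAt.comp_hasFDerivAt x d)).fderiv).trans ?_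
  simp

theorem eu_cp (h : ContDiff ℝ ∞ ψ) (r : cj u = u) (e : eu O u = 0) : eu O (cp ψ u) = 0 :=
  ext_fv hO fun x hx => by rw [← fd_eu hO _ hx, fd_cp hO h r hx, fd_eu hO _ hx, e, fv_zero, mul_zero]

theorem eu_fO {φ : ℝ × ℝ → ℝ} (h : ContDiff ℝ ∞ φ) : eu O (fO O φ) = 0 := by
  simp [eu_ap, Hp.H_ap, Hp.B_ap, d_fO hO h]

theorem fd_min (r : cj F = F) (p : ∀ y, 0 ≤ rv F y) (hx : x ∈ O) (e : rv F x = 0) :
    fderiv ℝ (fv F) x = 0 := by
  have d := ((rv_sm hO F hx).differentiableAt (by simp)).hasFDerivAt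
  have m : IsLocalMin (rv F) x := Eventually.of_forall fun y => e.le.trans (p y)
  rw [m.fderiv_eq_zero] at d
  rw [funext (fv_re r)]
  exact (Complex.ofRealCLM.hasFDerivAt.comp x d).fderiv.trans (by simp)

theorem X_of (hr : ∀ x ∈ O, x.2.1 ≠ 0 ∧ x.2.2 ≠ 0) (U : Set (ℝ × ℝ)) (s : ℤ) (f : ℝ → ℝ)
    {j : ℝ → ℝ} (hj : ContDiff ℝ ∞ j) (hx : x ∈ O) {g : ℂ}
    (e : ∀ v, fderiv ℝ (fv F) x v = g * fderiv ℝ (fv u) x v) (a : Fin 5) :
    fv ((fldO hO U s f j).X a F) x = g * fv ((fldO hO U s f j).X a u) x := by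
  have t := twI hO hr hj
  have z : ∀ i, fv ((hp (on O)).d i F) x = g * fv ((hp (on O)).d i u) x := fun i => by
    rw [fv_d hO _ _ hx, fv_d hO _ _ hx, e, e]; ring
  have z' : ∀ i, fv ((kt O j).d i F) x = g * fv ((kt O j).d i u) x := fun i => by
    fin_cases i <;> simp [kt, t.d_ap, fv_mul, fv_sub, fv_add, z] <;> ring
  fin_cases a <;> simp [Fld.X, fldO, Om, fv_mul, fv_sub, fv_add, z'] <;> ring

omit hO in
theorem C2.cone {cm M a r x0 x1 : ℝ} {w : Fin 3 → ℝ} (h : C2 cm M a r x0 x1) (c0 : 0 < cm)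
    (c1 : cm ≤ 1) (one : w 0 ^ 2 + w 1 ^ 2 + w 2 ^ 2 = 1) :
    P354FN.Cone cm M a r w ![x0, x1, 0, 0, 0] := by
  have q : 0 ≤ -x1 := (mul_nonneg c0.le (abs_nonneg _)).trans h.le
  have P : cP M a r ![x0, x1, 0, 0, 0] = P354BF.De M a r * x1 + 2 * (r ^ 2 + a ^ 2) * x0 := by
    simp only [cP, P354BF.De, Matrix.cons_val]; ring
  have m : cm0 a w ![x0, x1, 0, 0, 0] ^ 2 + cm1 a w ![x0, x1, 0, 0, 0] ^ 2 +
      cm2 a w ![x0, x1, 0, 0, 0] ^ 2 = a ^ 2 * x0 ^ 2 - (a * x0 * w 2) ^ 2 := by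
    simp only [cm0, cm1, cm2, Matrix.cons_val]
    linear_combination (a * x0 * w 2) ^ 2 * one
  refine ⟨fun i => ?_, P ▸ h.lo, ?_⟩
  · have : cm * |x1| ≤ -x1 := by
      rw [abs_of_nonpos (neg_nonneg.1 q)]; exact mul_le_of_le_one_left q c1
    fin_cases i
    exacts [h.le, this, by simpa using q, by simpa using q, by simpa using q]
  · rw [P, m]
    exact (sub_le_self _ (sq_nonneg _)).trans h.an

end Vale.Agent.P354EF
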