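import Vale.Agent.P354EF.Cp

/-!
The lid function is causal for the perturbed symbol.
-/

open scoped ContDiff Topology ENNReal
open Set Filter MeasureTheory

noncomputable section

namespace Vale.Agent.P354EF

open P354XG P354XI P354XD P354XR P354BO P354Z P354XT P354XF P354FN P354CV
open P354XI.Ibp (rl)

variable {c : P354Z.Cs} {E : Est} (h : Nr c E)

theorem bs_of {u : Sm (on E.O1)} (r : cj u = u) (a : (hp _).H u = 0) (b : (hp _).B u = 0) :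
    Bs h.raw.brg (Ph h 0) (AlgHom.id ℂ _) u := by
  have k := kT_HB h.co h.M0 E.M E.a
  rw [← k.2.1] at a
  rw [← k.2.2] at b
  refine ⟨r, fun v => ?_, ((Ph_is h 0).spin u ⟨a.trans (by simp), b.trans (by simp)⟩).trans
    (by simp [Ph, fldO])⟩
  cases v
  exacts [a, b]

theorem ecl (sh : E.Shape c) (x : (Ph h 0).B.Pt) {k cm ε δ x0 x1 lam : ℝ} (k1 : 1 ≤ k)
    (ha : |E.a| ≤ k) (hM : |E.M| ≤ k) (z : (kw (Ph h 0) E.M E.a).Zone (Ph h 0).B k x)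
    (c0 : 0 < cm) (c1 : cm ≤ 1) (d : ∀ a b, (Ph h 0).B.md x (h.raw.brg.del a b) ≤ ε)
    (hε : 25 * ε < cm ^ 4) (hδ : 6 * δ ≤ cm) (d1 : ∀ e, ‖fv (E.d1 c (.inl (1, e))) x.1.1‖ ≤ δ)
    (cn : Cn (kw (Ph h 0) E.M E.a) (Ph h 0).B cm x ![x0, x1, 0, 0, 0]) (n : x1 < 0) (l0 : 0 ≤ lam) :
    Gs (Ph h 0) E.M E.a h.raw.brg.del x (lam • gr (Ph h 0) x E.sig) (lam • gr (Ph h 0) x E.sig) ≤ 0 ∧
      Gs (Ph h 0) E.M E.a h.raw.brg.del x (lam • gr (Ph h 0) x E.sig) ![x0, x1, 0, 0, 0] ≤ 0 := by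
  have i := Ph_is h 0
  have H := Ph_hom h 0
  obtain ⟨φ, hφ⟩ : ∃ φ : ℝ × ℝ → ℝ, φ = fun p =>
    x0 * p.1 + (x1 + hs c.M (E.M, E.a, x.1.1.2.1) * x0) * p.2 := ⟨_, rfl⟩
  have sφ : ContDiff ℝ ∞ φ := by rw [hφ]; fun_prop
  have dφ : ∀ p v, fderiv ℝ φ p v =
      x0 * v.1 + (x1 + hs c.M (E.M, E.a, x.1.1.2.1) * x0) * v.2 := fun p v => by
    rw [hφ, ((hasFDerivAt_fst.const_mul x0).fun_add (hasFDerivAt_snd.const_mul _)).fderiv]
    simp
  have dd := d_fO h.co.op sφ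
  have g : gr (Ph h 0) x (fO E.O1 φ) = ![x0, x1, 0, 0, 0] := funext fun a => by
    have := fun j => (congrArg ((Ph h 0).B.val x) (i.Lf φ sφ j)).trans (Ibp.val_zero x)
    fin_cases a
    · exact (val_T i sφ x).trans (by simp [dt, dφ])
    · refine (val_R i sφ x).trans ?_
      rw [show (Ph h 0).f ((Ph h 0).pr x).2 = hs c.M (E.M, E.a, x.1.1.2.1) from rfl]
      simp [dt, dr, dφ]
    exacts [this 0, this 1, this 2]
  have bu := bs_of h (re_fO h.co.op sφ) (by simp [Hp.H_ap, dd]) (by simp [Hp.B_ap, dd])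
  have bs := bs_of h sh.b1.re sh.b1.H (base_eu sh.co1 sh.b1).1
  have es : h.raw.brg.smi = (Ph h 0).r * (Ph h 0).r +
      rl _ E.a * rl _ E.a * (Ph h 0).w 2 * (Ph h 0).w 2 := by rw [← H.r]; rfl
  have ra := i.B.re_rl E.a
  have rs : (Ph h 0).B.Re h.raw.brg.smi :=
    es ▸ (i.re_r.mul i.re_r).add (((ra.mul ra).mul (i.wre 2)).mul (i.wre 2))
  have s0 : 0 < (Ph h 0).B.val x h.raw.brg.smi := by
    rw [es, Ibp.val_add, mul_assoc, mul_assoc, i.B.val_mul i.re_r, i.B.val_mul ra, i.B.val_mul ra,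
      i.B.val_mul (i.wre 2), i.val_r, i.B.val_rl, ← mul_assoc]
    exact add_pos_of_pos_of_nonneg (mul_pos (h.co.pos _ x.1.2).1 (h.co.pos _ x.1.2).1)
      (mul_nonneg (mul_self_nonneg _) (mul_self_nonneg _))
  have tp : 0 < rv (E.G1.tp (fO E.O1 φ)) x.1.1 := by
    have e := f4_G1 sh 1 (fO E.O1 φ)
    have r : ∀ a, fv ((Ph h 0).X a (fO E.O1 φ)) x.1.1 = gr (Ph h 0) x (fO E.O1 φ) a := fun a =>
      fv_re ((i.sk a).isRe (re_fO h.co.op sφ)) _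
    have r0 : fv ((E.K1 c).T (fO E.O1 φ)) x.1.1 = x0 := by
      rw [← h.raw_k]; exact (congrArg (fv · _) (DFunLike.congr_fun (congrFun (Ph_X h 0) 0) _).symm).trans
        ((r 0).trans (by rw [g]; rfl))
    have r1 : fv ((E.K1 c).R (fO E.O1 φ)) x.1.1 = x1 := by
      rw [← h.raw_k]; exact (congrArg (fv · _) (DFunLike.congr_fun (congrFun (Ph_X h 0) 1) _).symm).trans
        ((r 1).trans (by rw [g]; rfl))
    have z : (E.K1 c).P (fO E.O1 φ) = 0 ∧ (E.K1 c).Q (fO E.O1 φ) = 0 ∧ (E.K1 c).H (fO E.O1 φ) = 0 ∧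
        (E.K1 c).B (fO E.O1 φ) = 0 := by
      simp [Est.K1, kI, kk, Hp.kc, Hp.P_ap, Hp.Q_ap, Hp.H_ap, Hp.B_ap, dd]
    have ni : fv (E.K1 c).Ni x.1.1 = ((nq x.1.1)⁻¹ : ℝ) :=
      ((fv_in _ x.1.2).trans (ev_on (rs_Ni h.off) x.1.2)).trans (Complex.ofReal_inv _).symm
    simp only [f4, KC.kerr, KC.tp, KC.V_ap, KC.bs, Fin.sum_univ_six, Matrix.cons_val, z, mul_zero,
      zero_mul, add_zero, zero_add] at e
    rw [rv, e, fv_add, fv_add, fv_mul, fv_mul, fv_mul, fv_neg, r0, r1, ni]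
    have a := pt_an h 0 x
    have b : 2 / 3 ≤ (nq x.1.1)⁻¹ := by rw [le_inv_comm₀ (by norm_num) (by linarith [a.1])]; linarith [a.2]
    have t : ∀ e (y : ℝ), -(δ * |y|) ≤ (fv (E.d1 c (.inl (1, e))) x.1.1 * y).re := fun e y => by
      refine neg_le_of_abs_le ((Complex.abs_re_le_norm _).trans ?_)
      rw [norm_mul, Complex.norm_real]
      exact mul_le_mul_of_nonneg_right (d1 e) (abs_nonneg _)
    have t0 := t 0 x0
    have t1 := t 1 x1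
    have l : cm * |x0| ≤ -x1 := cn.le 0
    rw [abs_of_neg n] at t1
    rw [Complex.add_re, Complex.add_re, ← Complex.ofReal_neg, ← Complex.ofReal_mul, Complex.ofReal_re]
    linarith [mul_le_mul_of_nonneg_right b (neg_pos.2 n).le, mul_le_mul_of_nonneg_right hδ (abs_nonneg x0),
      mul_le_mul_of_nonneg_right (hδ.trans c1) (neg_pos.2 n).le]
  have fs : Fut h.raw.brg (Ph h 0) (AlgHom.id ℂ _) x E.sig :=
    ⟨(sh.sg _ x.1.2).1, (sh.sg _ x.1.2).2.1, (sh.sg _ x.1.2).2.2⟩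
  have fu := fut_of i H h.raw.brg_is (fun _ => rfl) (re_del h 0) rs s0 bu tp (by
    have vr : (Ph h 0).B.val x (kw (Ph h 0) E.M E.a).r = _ := i.val_r x
    rw [KW.Zone, vr] at z
    rw [Cn, vr] at cn
    have := Zn.tau_neg ⟨k1, ha, hM, z.1, z.2, (kw_is i E.M E.a).val_one x⟩ c0
      (fun a b => (Ibp.abs_val_le x _).trans (d a b)) hε cn n
    rw [AlgHom.id_apply, g, Gs, gq_eq i]
    exact add_neg this this)
  have l1 := gs_le i H h.raw.brg_is (fun _ => rfl) (re_del h 0) rs s0 bs bs fs fs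
  have l2 := gs_le i H h.raw.brg_is (fun _ => rfl) (re_del h 0) rs s0 bs bu fs fu
  rw [gs_smul, gs_comm, gs_smul, gs_smul, ← g, ← mul_assoc]
  exact ⟨mul_nonpos_of_nonneg_of_nonpos (mul_self_nonneg _) l1, mul_nonpos_of_nonneg_of_nonpos l0 l2⟩

end Vale.Agent.P354EF
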