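import Vale.Agent.P354BO.TwO
import Vale.Agent.P354XT.Calc

/-!
The ring of smooth functions on any open set O, with the twisted chart, as a ring of fields.
-/

open scoped ContDiff ComplexConjugate Topology
open Complex (I)
open MeasureTheory Set Filter

namespace Vale.Agent.P354EF

open P354XG P354XI P354XD P354XR P354BO
open P354XT hiding d1

/-- Functions of (t, r), and the density. -/
noncomputable def fO (O : Set E6) (φ : ℝ × ℝ → ℝ) : Sm (on O) := gm _ fun p => (φ (tr p.2) : ℂ)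
noncomputable def bO (O : Set E6) : Sm (on O) := gm _ fun p => (χ p.2.2.2 : ℂ) ^ 2

/-- The sections of spin s. -/
def SecK {A : Type} [CommRing A] [Algebra ℂ A] (K : Hp A) (s : ℤ) : Submodule ℂ A where
  carrier := {u | K.H u = (s : ℂ) • u ∧ K.B u = -((s : ℂ) • u)}
  add_mem' a b := by simp only [mem_ofPred, map_add, a.1, a.2, b.1, b.2, smul_add, neg_add, and_self]
  zero_mem' := by simp
  smul_mem' z _ a := by
    simp only [mem_ofPred, Derivation.map_smul, a.1, a.2, smul_neg, smul_comm z, and_self]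

theorem secK_mul {A : Type} [CommRing A] [Algebra ℂ A] {K : Hp A} {s : ℤ} {a u : A}
    (h : K.H a = 0) (h' : K.B a = 0) (hu : u ∈ SecK K s) : a * u ∈ SecK K s :=
  ⟨by rw [D_mul, hu.1, h]; simp, by rw [D_mul, hu.2, h']; simp⟩

variable {O : Set E6}

/-- The integral. -/
noncomputable def BO (hO : IsOpen O) : Ibp (Sm (on O)) := (box volume hO).rew (bO O)

/-- The model. -/
noncomputable def fldO (hO : IsOpen O) (U : Set (ℝ × ℝ)) (s : ℤ) (f j : ℝ → ℝ) :
    Fld (Sm (on O)) where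
  B := BO hO
  T := (kt O j).d 0
  R := (kt O j).d 1 - fO O (fun p => f p.2) • (kt O j).d 0
  L := Om (kt O j)
  w := ww (kt O j)
  pr x := tr x.1.1
  Om := U
  fn := fO O
  Sp := SecK (kt O j) s
  s := s
  f := f

theorem fv_fO {φ : ℝ × ℝ → ℝ} (h : ContDiff ℝ ∞ φ) {x : E6} (hx : x ∈ O) :
    fv (fO O φ) x = φ (tr x) :=
  (fv_in _ hx).trans (ev_on (rs_gm (G := on O) (f := fun p => (φ (tr p.2) : ℂ))
    (Eventually.of_forall fun _ => (fz_sm h).contDiffAt)) hx)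

theorem fv_bO {x : E6} (hx : x ∈ O) : fv (bO O) x = (χ x.2.2 : ℂ) ^ 2 :=
  (fv_in _ hx).trans (ev_on (rs_gm (G := on O) (f := fun p => (χ p.2.2.2 : ℂ) ^ 2)
    (Eventually.of_forall fun p =>
      show ContDiffAt ℝ ∞ (fun x : E6 => (χ x.2.2 : ℂ) ^ 2) p.2 from be_sm.contDiffAt)) hx)

theorem fv_one {x : E6} (hx : x ∈ O) : fv (1 : Sm (on O)) x = 1 := (evO ⟨x, hx⟩).map_one
theorem fv_sub (a b : Sm (on O)) (x : E6) : fv (a - b) x = fv a x - fv b x := by
  rw [eq_sub_iff_add_eq, ← fv_add, sub_add_cancel]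
theorem fv_neg (a : Sm (on O)) (x : E6) : fv (-a) x = -fv a x := by
  rw [← zero_sub, fv_sub, fv_zero, zero_sub]

theorem skew_sub {A : Type} [CommRing A] [Algebra ℂ A] {B : Ibp A} {D D' : Der A} (h : B.Skew D)
    (h' : B.Skew D') : B.Skew (D - D') :=
  ⟨(dv_sub h.dv h'.dv).congr (sub_zero 0), fun f => by
    rw [Derivation.sub_apply, Derivation.sub_apply, map_sub, h.re, h'.re]⟩

variable (hO : IsOpen O)
include hO

theorem fd_of {a : Sm (on O)} {g : E6 → ℂ} (h : ∀ x ∈ O, fv a x = g x) {x : E6} (hx : x ∈ O) :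
    fderiv ℝ (fv a) x = fderiv ℝ g x :=
  Filter.EventuallyEq.fderiv_eq ((hO.eventually_mem hx).mono h)

theorem fd_fO {φ : ℝ × ℝ → ℝ} (h : ContDiff ℝ ∞ φ) {x : E6} (hx : x ∈ O) (v : E6) :
    fderiv ℝ (fv (fO O φ)) x v = fderiv ℝ φ (tr x) (tr v) := by
  rw [fd_of hO (g := fun x => (φ (tr x) : ℂ)) (fun _ => fv_fO h) hx]
  exact congrArg (· v) (Complex.ofRealCLM.hasFDerivAt.comp x ((h.differentiable (by simp)
    (tr x)).hasFDerivAt.comp x (f := tr) (hasFDerivAt_fst.prodMk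
      (hasFDerivAt_snd (𝕜 := ℝ) (p := x)).fst))).fderiv

theorem fd_bO {x : E6} (hx : x ∈ O) (v : E6) :
    fderiv ℝ (fv (bO O)) x v = 2 * χ x.2.2 * fderiv ℝ χ x.2.2 v.2.2 := by
  rw [fd_of hO (g := fun x => (χ x.2.2 : ℂ) ^ 2) (fun _ => fv_bO) hx]
  refine (congrArg (· v) ((Complex.ofRealCLM.hasFDerivAt.comp x ((χ_sm.differentiable (by simp)
    x.2.2).hasFDerivAt.comp x (hasFDerivAt_snd (𝕜 := ℝ) (p := x)).snd)).pow 2).fderiv).trans ?_
  simp

theorem fv_Om (j : Fin 3) (u : Sm (on O)) {x : E6} (hx : x ∈ O) :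
    fv (Om (hp (on O)) j u) x = fderiv ℝ (fv u) x (0, 0, A j x.2.2) := by
  have a : fv (Geo.hf (Sm (on O))) x = 1 / 2 := fv_alg _ hx
  have b : fv (ii (Sm (on O))) x = I := fv_alg _ hx
  rw [fd_all hO u hx]
  induction j using fin3 <;> simp [Om, A0, A1, A2, a, b, fv_z _ hx, zc, map_ofNat, fv_mul, fv_add,
    fv_sub, Fin.sum_univ_six] <;> ring

theorem d_fO {φ : ℝ × ℝ → ℝ} (h : ContDiff ℝ ∞ φ) :
    (hp (on O)).d 0 (fO O φ) = fO O (fun p => fderiv ℝ φ p (1, 0)) ∧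
    (hp (on O)).d 1 (fO O φ) = fO O (fun p => fderiv ℝ φ p (0, 1)) ∧
    (hp (on O)).d 2 (fO O φ) = 0 ∧ (hp (on O)).d 3 (fO O φ) = 0 ∧
    (hp (on O)).d 4 (fO O φ) = 0 ∧ (hp (on O)).d 5 (fO O φ) = 0 := by
  have s := fun v => (h.fderiv_right (m := ∞) le_rfl).clm_apply (contDiff_const (c := v))
  refine ⟨?_, ?_, ?_, ?_, ?_, ?_⟩ <;> refine ext_fv hO fun x hx => ?_ <;>
    rw [fv_d hO _ _ hx, fd_fO hO h hx, fd_fO hO h hx] <;>
    simp [v1, v2, d1, d2, tr, fv_zero, fv_fO (s _) hx, Prod.mk_zero_zero]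

theorem re_fO {φ : ℝ × ℝ → ℝ} (h : ContDiff ℝ ∞ φ) : cj (fO O φ) = fO O φ :=
  ext_fv hO fun _ hx => by rw [fv_cj, fv_fO h hx, Complex.conj_ofReal]

theorem fO_add {φ ψ : ℝ × ℝ → ℝ} (a : ContDiff ℝ ∞ φ) (b : ContDiff ℝ ∞ ψ) :
    fO O (fun p => φ p + ψ p) = fO O φ + fO O ψ := ext_fv hO fun _ hx => by
  rw [fv_add, fv_fO (a.add b) hx, fv_fO a hx, fv_fO b hx, Complex.ofReal_add]

theorem fO_mul {φ ψ : ℝ × ℝ → ℝ} (a : ContDiff ℝ ∞ φ) (b : ContDiff ℝ ∞ ψ) :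
    fO O (fun p => φ p * ψ p) = fO O φ * fO O ψ := ext_fv hO fun _ hx => by
  rw [fv_mul, fv_fO (a.mul b) hx, fv_fO a hx, fv_fO b hx, Complex.ofReal_mul]

theorem BO_is : (BO hO).Is :=
  (box_is volume hO).rew (ext_fv hO fun x hx => (fv_cj _ _).trans (by
    rw [fv_bO hx, map_pow, Complex.conj_ofReal])) fun x => by
      rw [Ibp.val, show (box volume hO).ev x (bO O) = _ from fv_bO x.2, ← Complex.ofReal_pow,
        Complex.ofReal_re]
      exact sq_nonneg _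

theorem dv_hp (i : Fin 6) : (box volume hO).Dv ((hp (on O)).d i) 0 :=
  (((box_skew volume _ (v1 i)).dv.smul _).add ((box_skew volume _ (v2 i)).dv.smul _)).congr
    (by simp)

/-- Compact support in the shell. -/
theorem memK {C : Set E6} (hC : IsCompact C) (sC : C ⊆ O) {F : Sm (on O)}
    (e : ∀ x ∈ O, χ x.2.2 ≠ 0 → x ∉ C → fv F x = 0) : F ∈ (BO hO).K :=
  ⟨C, hC, sC, fun x hx => by
    refine (fv_mul _ _ x).trans ?_
    by_cases a : x ∈ O
    · by_cases b : χ x.2.2 = 0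
      · rw [fv_bO a, b]; simp
      · rw [e x a b hx, mul_zero]
    · rw [fv_out _ a, zero_mul]⟩

theorem BO_J {F : Sm (on O)} (h : F ∈ (BO hO).K) :
    (BO hO).J F = ∫ x, χ x.2.2 ^ 2 * (fv F x).re := by
  refine (box_J volume hO (a := bO O * F) h).trans
    (integral_congr_ae (Eventually.of_forall fun x => ?_))
  by_cases a : x ∈ O
  · simp only [fv_mul, fv_bO a, ← Complex.ofReal_pow, Complex.re_ofReal_mul]
  · simp [fv_out _ a]

theorem BO_int {F : Sm (on O)} (h : F ∈ (BO hO).K) :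
    Integrable fun x : E6 => χ x.2.2 ^ 2 * (fv F x).re :=
  (cs_int volume hO (a := bO O * F) h).re.congr (Eventually.of_forall fun x => by
    by_cases a : x ∈ O
    · simp only [fv_mul, fv_bO a, ← Complex.ofReal_pow]; exact Complex.re_ofReal_mul _ _
    · simp [fv_out _ a])

variable (hr : ∀ x ∈ O, x.2.1 ≠ 0 ∧ x.2.2 ≠ 0)
include hr

theorem skew_hp : (BO hO).Skew ((hp (on O)).d 0) ∧ (BO hO).Skew ((hp (on O)).d 1) ∧
    ∀ i, (BO hO).Skew (Om (hp (on O)) i) := by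
  have h := hp_is (on_of hO hr)
  have z := fun i j => (dv_hp hO i).smul ((hp (on O)).z j)
  refine ⟨Ibp.Skew.rew ⟨dv_hp hO 0, h.c0⟩ (ext_fv hO fun x hx => ?_),
    Ibp.Skew.rew ⟨dv_hp hO 1, h.c1⟩ (ext_fv hO fun x hx => ?_),
    fun i => Ibp.Skew.rew ⟨?_, c_Om h i⟩ (ext_fv hO fun x hx => ?_)⟩
  · rw [fv_d hO _ _ hx, fd_bO hO hx, fd_bO hO hx]; simp [v1, v2, fv_zero, Prod.mk_zero_zero]
  · rw [fv_d hO _ _ hx, fd_bO hO hx, fd_bO hO hx]; simp [v1, v2, fv_zero, Prod.mk_zero_zero]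
  · fin_cases i
    · exact ((dv_sub (dv_sub ((z 4 5).add (z 5 4)) (z 2 3)) (z 3 2)).smul _).congr
        (by simp [h.dz, Hp.D_hf, D_ii])
    · exact ((dv_sub ((dv_sub (z 3 2) (z 2 3)).add (z 5 4)) (z 4 5)).smul _).congr
        (by simp [h.dz, Hp.D_hf])
    · exact ((dv_sub ((dv_sub (z 3 3) (z 2 2)).add (z 4 4)) (z 5 5)).smul _).congr
        (by simp [h.dz, Hp.D_hf, D_ii])
  · rw [fv_Om hO _ _ hx, fd_bO hO hx]; simp [χ_A, fv_zero]

theorem fldO_is {U : Set (ℝ × ℝ)} (hU : cyl U ⊆ O) (s : ℤ) {f j : ℝ → ℝ} (hf : ContDiff ℝ ∞ f)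
    (hj : ContDiff ℝ ∞ j) : (fldO hO U s f j).Is := by
  have t := twI hO hr hj
  have h : (kt O j).Is := t.is
  have k := h.kc
  have hf' : ContDiff ℝ ∞ fun p : ℝ × ℝ => f p.2 := hf.comp contDiff_snd
  have df : ∀ φ : ℝ × ℝ → ℝ, ContDiff ℝ ∞ φ → ∀ v, ContDiff ℝ ∞ v →
      ContDiff ℝ ∞ fun p : ℝ × ℝ => fderiv ℝ φ p (v p) := fun φ a v b =>
    (a.fderiv_right (m := ∞) le_rfl).clm_apply b
  have dk : ∀ φ, ContDiff ℝ ∞ φ → (kt O j).d 0 (fO O φ) = fO O (fun p => fderiv ℝ φ p (1, 0)) ∧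
      (kt O j).d 1 (fO O φ) = fO O (fun p => fderiv ℝ φ p (0, 1)) ∧ (kt O j).d 2 (fO O φ) = 0 ∧
      (kt O j).d 3 (fO O φ) = 0 ∧ (kt O j).d 4 (fO O φ) = 0 ∧ (kt O j).d 5 (fO O φ) = 0 :=
    fun φ a => by simp only [kt, t.d_ap, d_fO hO a, mul_zero, sub_zero, add_zero, and_self]
  have Lf : ∀ φ, ContDiff ℝ ∞ φ → ∀ i, Om (kt O j) i (fO O φ) = 0 := fun φ a i => by
    fin_cases i <;> simp [Om, dk φ a]
  have HB : ∀ φ, ContDiff ℝ ∞ φ → (kt O j).H (fO O φ) = 0 ∧ (kt O j).B (fO O φ) = 0 :=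
    fun φ a => by simp [Hp.H_ap, Hp.B_ap, dk φ a]
  have T0 : (kt O j).d 0 (fO O fun p => f p.2) = 0 := (dk _ hf').1.trans (ext_fv hO fun x hx => by
    rw [fv_fO (df _ hf' _ contDiff_const) hx, Fld.fd_snd hf]; simp [fv_zero])
  have R : ∀ u, (fldO hO U s f j).R u =
      (kt O j).d 1 u - fO O (fun p => f p.2) * (kt O j).d 0 u := fun u => by simp [fldO]
  obtain ⟨s0, s1, sO⟩ := skew_hp hO hr
  have ok : ∀ {u}, (∀ i, i ≠ 1 → (hp (on O)).d i u = 0) → ∀ i, Om (hp (on O)) i u = 0 :=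
    fun e i => by fin_cases i <;> simp [Om, e]
  have sc := fun i => (sO i).smul t.c_cs.1 (ok t.d_cs.1 i)
  have ss := fun i => (sO i).smul t.c_cs.2 (ok t.d_cs.2.1 i)
  have cg : ∀ {D D'}, (BO hO).Skew D → (∀ u, D' u = D u) → (BO hO).Skew D' :=
    fun a b => Derivation.ext b ▸ a
  refine
    { B := BO_is hO
      sk := fun a => ?_
      sf := hf
      TR := fun u => ?_
      TL := fun i u => (Om_comm h i u).1
      RL := fun i u => ?_
      LL := Om_Om h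
      wre := fun i => h.c_om i.succ
      Tw := fun i => (tw h i).1
      Rw := fun i => (R _).trans (by
        rw [show (fldO hO U s f j).w i = ww (kt O j) i from rfl, (tw h i).1, (tw h i).2.1]; simp)
      Lw0 := fun i => (Om_ww h i).1
      Lw1 := fun i => (Om_ww h i).2.1
      Lw2 := fun i => (Om_ww h i).2.2
      one := (pw h).1
      spX := fun a u hu => ?_
      spw := fun i u hu => secK_mul (tw h i).2.2.2.2.1 (tw h i).2.2.2.2.2.1 hu
      spf := fun φ a u hu => secK_mul (HB φ a).1 (HB φ a).2 hu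
      spin := fun u hu => (spin h u).trans (by
        have e := Geo.two_hf (A := Sm (on O))
        simp only [Sp, hu.1, hu.2, Algebra.smul_def, fldO, ii, map_neg, map_mul,
          Complex.ofReal_intCast]
        linear_combination -(algebraMap ℂ _ I * algebraMap ℂ _ (s : ℂ) * u) * e)
      ev := fun φ a x => fv_fO a x.1.2
      re := fun φ a => re_fO hO a
      add := fun φ ψ a b => fO_add hO a b
      mul := fun φ ψ a b => fO_mul hO a b
      cst := fun c => ext_fv hO fun x hx => (fv_fO contDiff_const hx).trans (fv_alg _ hx).symm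
      Tf := fun φ a => (dk φ a).1
      Rf := fun φ a => ?_
      Lf := Lf
      cs := fun C hC sC F hF => memK hO (C := (fun y : (ℝ × ℝ) × V => (y.1.1, y.1.2, y.2)) '' C ×ˢ K)
        ((hC.prod K_cpt).image (by fun_prop)) ?_ fun x a b hx => ?_
      loc := fun W hW a F hF x hx => ?_ }
  · fin_cases a
    · exact s0
    · have e : (hp (on O)).kc.F2 = Om (hp (on O)) 2 + Om (hp (on O)) 2 := by
        ext u; rw [F2_Om t.h, two_mul]; rfl
      exact skew_sub (skew_sub s1 ((e ▸ (sO 2).add (sO 2)).smul t.cj (by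
        rw [F2_Om t.h, ok t.dj, mul_zero]))) (s0.smul (re_fO hO hf') T0)
    · exact cg ((sc 0).add (ss 1)) fun u => (t.Om_eq u).1
    · exact cg (skew_sub (sc 1) (ss 0)) fun u => (t.Om_eq u).2.1
    · exact cg (sO 2) fun u => (t.Om_eq u).2.2
  · rw [R, R]
    simp only [fldO, D_sub, D_mul, T0, h.comm 0 1, mul_zero, add_zero]
  · rw [R, R]
    simp only [fldO, D_sub, D_mul, Lf _ hf', Om_comm h i u, mul_zero, add_zero]
  · have c : ∀ D : Der (Sm (on O)), (∀ v, (kt O j).H (D v) = D ((kt O j).H v)) →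
        (∀ v, (kt O j).B (D v) = D ((kt O j).B v)) → D u ∈ SecK (kt O j) s := fun D a b =>
      ⟨by rw [a, hu.1, D.map_smul], by rw [b, hu.2, map_neg, D.map_smul]⟩
    have o := fun i => c _ (fun v => (Om_comm h i v).2.2.2.2.1) fun v => (Om_comm h i v).2.2.2.2.2
    fin_cases a
    · exact c _ k.H_T k.B_T
    · refine c (fldO hO U s f j).R (fun v => ?_) fun v => ?_
      · rw [R, R, D_sub, D_mul, (HB _ hf').1, mul_zero, add_zero]
        exact congrArg₂ (· - ·) (k.H_R v) (congrArg _ (k.H_T v))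
      · rw [R, R, D_sub, D_mul, (HB _ hf').2, mul_zero, add_zero]
        exact congrArg₂ (· - ·) (k.B_R v) (congrArg _ (k.B_T v))
    exacts [o 0, o 1, o 2]
  · refine (R _).trans (ext_fv hO fun x hx => ?_)
    rw [show (fldO hO U s f j).fn = fO O from rfl, (dk φ a).1, (dk φ a).2.1, fv_sub, fv_mul,
      fv_fO (df φ a _ contDiff_const) hx, fv_fO (df φ a _ contDiff_const) hx, fv_fO hf' hx,
      fv_fO (df φ a (fun p => (-(fldO hO U s f j).f p.2, 1)) (hf'.neg.prodMk contDiff_const)) hx,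
      show ((-(fldO hO U s f j).f (tr x).2, 1) : ℝ × ℝ) = (0, 1) - f (tr x).2 • (1, 0) by
        simp [fldO], map_sub, map_smul]
    simp
  · rintro _ ⟨y, hy, rfl⟩
    exact hU ⟨sC hy.1, K_ne hy.2⟩
  · refine hF ⟨⟨x, a⟩, (fv_bO a).trans_ne (by simpa using b)⟩ fun c => hx ⟨(tr x, x.2.2), ⟨c, ?_⟩, rfl⟩
    by_contra d
    exact b (χ_out d)
  · have b : ∀ᶠ y in 𝓝 x.1.1, (χ y.2.2 : ℂ) ^ 2 ≠ 0 :=
      be_sm.continuous.continuousAt.eventually_ne ((fv_bO x.1.2).symm.trans_ne x.2)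
    have z : ∀ i, fv ((hp (on O)).d i F) x.1.1 = 0 := fun i => by
      rw [fv_d hO _ _ x.1.2, Filter.EventuallyEq.fderiv_eq (f := fun _ => 0) (by
        filter_upwards [b, hO.eventually_mem x.1.2,
          (hW.preimage tr_sm.continuous).eventually_mem hx] with y b c d
        exact hF ⟨⟨y, c⟩, (fv_bO c).trans_ne b⟩ d)]
      simp
    have z' : ∀ i, fv ((kt O j).d i F) x.1.1 = 0 := fun i => by
      fin_cases i <;> simp [kt, t.d_ap, fv_mul, fv_sub, fv_add, z]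
    change fv _ x.1.1 = 0
    fin_cases a <;> simp [Fld.X, fldO, Om, fv_mul, fv_sub, fv_add, z']

end Vale.Agent.P354EF
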