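import Vale.Agent.P354EF.Main
import Vale.Agent.P354CP.Row
import Vale.Agent.P354SO.Defs

/-!
The estimate in the interior.
-/

open scoped ContDiff ENNReal
open Set MeasureTheory

noncomputable section

namespace Vale.Agent.P354EF

open Vale.Agent.P354XG Vale.Agent.P354XD Vale.Agent.P354XI Vale.Agent.P354Z Vale.Agent.P354CV
open Vale.Agent.P354CP Vale.Agent.P354SO
open Vale.Agent.P354BF (De rp)
open Vale.Agent.P354BO (tr)
open Vale.Agent.P354XT (up dn up_zero up_one dn_one dn_zero up_nonneg up_le dn_nonneg dn_le up_sm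
  dn_sm)
open Vale.Agent.P354PH (up_der dn_der up_der_out dn_der_out dn_der_eq ex_slope)
open Vale.Agent.P354XR (eta_nn r1_pos)

/-- The sign of De between the horizons, for all near parameters. -/
theorem de_in {M0 a0 r1 ro : ℝ} (ha : |a0| < M0) (h1 : M0 - √(M0 ^ 2 - a0 ^ 2) < r1)
    (h2 : ro < rp M0 a0) : ∃ q δ, 0 < q ∧ 0 < δ ∧ ∀ M a r, |M - M0| + |a - a0| ≤ δ → |a| < M →
      M ≤ 5 / 4 * M0 → r1 ≤ r → r ≤ ro →
        De M a r ≤ -q ∧ r ≤ 5 * M0 ∧ r ^ 2 + a ^ 2 ≤ 6 * M0 ^ 2 := by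
  have m := (abs_nonneg _).trans_lt ha
  have s1 : √(M0 ^ 2 - a0 ^ 2) ≤ M0 := Real.sqrt_le_iff.2 ⟨m.le, by nlinarith [sq_nonneg a0]⟩
  have s2 : √(M0 ^ 2 - a0 ^ 2) ^ 2 = M0 ^ 2 - a0 ^ 2 :=
    Real.sq_sqrt (by nlinarith [sq_lt_sq' (abs_lt.1 ha).1 (abs_lt.1 ha).2])
  rw [rp] at h2
  generalize √(M0 ^ 2 - a0 ^ 2) = s at *
  have p1 : 0 < r1 - (M0 - s) := by linarith
  have p2 : 0 < M0 + s - ro := by linarith
  have p := mul_pos p1 p2
  refine ⟨(r1 - (M0 - s)) * (M0 + s - ro) / 2, (r1 - (M0 - s)) * (M0 + s - ro) / (14 * M0),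
    by positivity, by positivity, fun M a r hδ haM hM a1 a2 => ?_⟩
  have k1 : (r1 - (M0 - s)) * (M0 + s - ro) ≤ (r - (M0 - s)) * (M0 + s - r) :=
    mul_le_mul (by linarith) (by linarith) p2.le (by linarith)
  rw [le_div_iff₀ (by positivity)] at hδ
  generalize (r1 - (M0 - s)) * (M0 + s - ro) = P at *
  have r0 : 0 ≤ r := by linarith
  have r2 : r ≤ 2 * M0 := by linarith
  have b1 : (M0 - M) * r ≤ |M - M0| * (2 * M0) :=
    mul_le_mul (by rw [abs_sub_comm]; exact le_abs_self _) r2 r0 (abs_nonneg _)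
  have b2 : (a - a0) * (a + a0) ≤ |a - a0| * (3 * M0) := (le_abs_self _).trans (by
    rw [abs_mul]
    exact mul_le_mul_of_nonneg_left ((abs_add_le _ _).trans (by linarith)) (abs_nonneg _))
  have b3 := mul_nonneg (abs_nonneg (M - M0)) m.le
  have b4 := mul_nonneg (abs_nonneg (a - a0)) m.le
  refine ⟨by rw [De]; linarith, by linarith, ?_⟩
  have c1 : r ^ 2 ≤ (2 * M0) ^ 2 := pow_le_pow_left₀ r0 r2 2
  have c2 : a ^ 2 ≤ (5 / 4 * M0) ^ 2 := by
    rw [← sq_abs]; exact pow_le_pow_left₀ (abs_nonneg _) (by linarith) 2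
  linarith [sq_nonneg M0]

variable {cm κ M0 M a : ℝ} {Z : Set (ℝ × ℝ)}

theorem wg_exp (hκ : 0 ≤ κ) (t : ℝ) (h : ∀ p ∈ Z, hs M0 (M, a, p.2) = 1 ∧
    C2 cm M a p.2 1 (0 - 1 * hs M0 (M, a, p.2))) :
    Wg cm κ M0 M a Z (fun p => Real.exp (-κ * (p.1 - t))) fun _ => 0 := by
  have d : ∀ s, deriv (fun s => Real.exp (-κ * (s - t))) s = -κ * Real.exp (-κ * (s - t)) :=
    fun s => ((((hasDerivAt_id s).sub_const t).const_mul (-κ)).exp.deriv).trans (by simp [mul_comm])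
  refine (wg_dec (φ := fun s => Real.exp (-κ * (s - t))) (α := 1) (β := 0) (by fun_prop)
    (fun _ => (Real.exp_pos _).le) (fun s => by
      rw [d]; exact mul_nonpos_of_nonpos_of_nonneg (by linarith) (Real.exp_pos _).le)
    fun p hp => ⟨?_, fun _ => (h p hp).2⟩).congr (by simp) rfl rfl
  rw [d, (h p hp).1]
  exact le_of_eq (by ring)

/-- The weight of the interior estimate. -/
theorem wg_in (h0 : 0 ≤ cm) (h1 : cm ≤ 1) (hκ : 0 ≤ κ) {ri ro ε : ℝ} (hr : ri < ro) (hε : 0 < ε)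
    (t b : ℝ) (h : ∀ p ∈ Z, hs M0 (M, a, p.2) = 1 ∧ C2 cm M a p.2 1 (0 - 1 * hs M0 (M, a, p.2)) ∧
      C2 cm M a p.2 (-ε) (-1 - -ε * 1)) :
    Wg cm κ M0 M a Z (fun p => Real.exp (-κ * (p.1 - t)) * dn (t + 1) (t + 2) p.1 *
      dn b (b + ε) (-ε * p.1 + -1 * p.2) * dn ri ro p.2) fun p => Real.exp (-κ * (p.1 - t)) *
        dn (t + 1) (t + 2) p.1 * dn b (b + ε) (-ε * p.1 + -1 * p.2) * deriv (up ri ro) p.2 := by
  have w1 := (wg_bad (cm := cm) (M0 := M0) (M := M) (a := a) (α := 0) (β := 1) (B := 1)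
    (Z := Z) (dn_sm ri ro) (dn_nonneg ri ro) (up_dsm ri ro)
    (fun x => by rw [dn_der_eq, abs_neg, abs_of_nonneg (up_der hr x)]) (by simp)
    (by simp)).congr (w' := fun p => dn ri ro p.2) (bd' := fun p => deriv (up ri ro) p.2)
    (by simp) (by simp) rfl
  have w2 : Wg cm 0 M0 M a Z (fun p => dn (t + 1) (t + 2) p.1) fun _ => 0 :=
    (wg_cut (α := 1) (β := 0) h0 (dn_sm (t + 1) (t + 2)) (dn_nonneg _ _) (dn_der (by linarith))
      fun p hp _ => (h p hp).2.1).congr (by simp) rfl rfl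
  exact (((wg_exp hκ t fun p hp => ⟨(h p hp).1, (h p hp).2.1⟩).mul00 h0 h1 w2).mul00 h0 h1
    (wg_cut (α := -ε) (β := -1) h0 (dn_sm _ _) (dn_nonneg _ _) (dn_der (by linarith))
      fun p hp _ => by rw [(h p hp).1]; exact (h p hp).2.2)).mul0 h0 h1 w1

theorem ye_ms (ri ρ s t : ℝ) :
    MeasurableSet {x : E6 | ri ≤ x.2.1 ∧ x.2.1 ≤ ρ ∧ s ≤ x.1 ∧ x.1 ≤ t} :=
  (isClosed_le continuous_const continuous_snd.fst).measurableSet.inter (bx_ms ρ s t)

theorem inner : INNER := by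
  intro M0 a0 r1 ri ro hr h2
  by_cases hc : ∃ c : Cs, c.Ok ∧ c.M = M0 ∧ c.a = a0 ∧ c.r1 = r1
  swap
  · exact ⟨0, fun c _ ok e1 e2 e3 => (hc ⟨c, ok, e1, e2, e3⟩).elim⟩
  obtain ⟨c0, ok0, rfl, rfl, rfl⟩ := hc
  obtain ⟨m0, p0⟩ := r1_pos ok0
  obtain ⟨q, δ1, q0, d1, hq⟩ := de_in ok0.aM ok0.r1 h2
  obtain ⟨c1, k0, k1, kc⟩ := ex_kc c0.M p0
  obtain ⟨ε, e0, e1, e2⟩ : ∃ ε, 0 < ε ∧ ε ≤ 1 / 2 ∧ ε * (48 * c0.M ^ 2) ≤ q :=
    ⟨min (1 / 2) (q / (48 * c0.M ^ 2)), by positivity, min_le_left _ _,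
      (le_div_iff₀ (by positivity)).1 (min_le_right _ _)⟩
  obtain ⟨cm, l0, l1, l2⟩ : ∃ cm, 0 < cm ∧ cm ≤ c1 ∧ 4 * cm ≤ q :=
    ⟨min c1 (q / 4), by positivity, min_le_left _ _, by linarith [min_le_right c1 (q / 4)]⟩
  obtain ⟨l, hl⟩ := exists_nat_ge ((ro - c0.r1) / ε + 1)
  have hl' : ro - c0.r1 ≤ ε * (l - 1) := by
    rw [mul_comm]; exact (div_le_iff₀ e0).1 (by linarith)
  refine ⟨l, fun c n ok f1 f2 f3 hn => ?_⟩
  obtain ⟨κ, C, δ, κ0, C0, d0, hF⟩ := efin c0.M c0.r1 ro cm n m0 p0 l0 (by linarith) hn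
  obtain ⟨D, D1, hD⟩ := ex_slope (sub_pos.2 hr)
  refine ⟨Real.exp κ * (C * (Real.exp (κ * l) * D)), min δ (min δ1 (c0.M / 2)), by positivity,
    fun E t h => ?_⟩
  have par := h.par
  rw [f1, f2] at par
  have pa := h.eq.par
  rw [f1] at pa
  have rad : ∀ x ∈ E.O1, c0.r1 ≤ x.2.1 := fun x hx => f3 ▸ (h.sh.rad1 x hx).1
  set b := -(c0.r1 + ε * t) with hb
  have g1 : t + 1 < t + 2 := by linarith
  have g3 : b < b + ε := by linarith
  have hw := wg_in (M0 := c0.M) (M := E.M) (a := E.a) (Z := {p | c0.r1 ≤ p.2 ∧ p.2 ≤ ro}) l0.le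
    (by linarith) κ0.le hr e0 t b fun p hp => by
      have u := hq E.M E.a p.2 (par.trans ((min_le_right _ _).trans (min_le_left _ _))) pa.1 pa.2
        hp.1 hp.2
      exact ⟨hs_in m0 u.2.1, c2_mono ((kc _ _ _ pa.1 pa.2 hp.1).2.2 0 ⟨le_rfl, by norm_num⟩
        fun _ => rfl) l0.le l1, c2_in u.1 l0.le (by linarith) l2 e0.le e1 (by
          linarith [mul_le_mul_of_nonneg_left u.2.2 e0.le])⟩
  have sup : ∀ x : E6, x.2.1 ≤ ro → Real.exp (-κ * (x.1 - t)) * dn (t + 1) (t + 2) x.1 *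
      dn b (b + ε) (-ε * x.1 + -1 * x.2.1) ≠ 0 → t - l ≤ x.1 ∧ x.1 ≤ t + 2 := fun x k z => by
    simp only [mul_ne_zero_iff] at z
    refine ⟨by_contra fun y => z.2 (dn_zero g3 ?_), by_contra fun y => z.1.2 (dn_zero g1
      (not_le.1 y).le)⟩
    linarith [mul_le_mul_of_nonneg_left (not_le.1 y).le e0.le]
  have key := hF c E f1 f3 (by
      linarith [(abs_le.1 ((le_add_of_nonneg_right (abs_nonneg _)).trans (par.trans
        ((min_le_right _ _).trans (min_le_right _ _))))).1]) h.sh h.eq h.rs univ isOpen_univ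
    isLowerSet_univ _ _ hw.sw hw.sb hw.w0 hw.b0 fun x hx an _ hn => by
      have k : x.2.1 ≤ ro := by_contra fun y => hn.elim
        (fun z => (mul_ne_zero_iff.1 z).2 (dn_zero hr (not_le.1 y).le))
        fun z => (mul_ne_zero_iff.1 z).2 (up_der_out hr fun y' => y y'.2)
      have k' := sup x k (hn.elim (fun z => (mul_ne_zero_iff.1 z).1)
        fun z => (mul_ne_zero_iff.1 z).1)
      have r1 := (h.sh.rad1 x hx).1
      have sm := h.sml x hx an k k'.1 k'.2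
      have dd : min δ (min δ1 (c0.M / 2)) ^ 2 ≤ δ ^ 2 :=
        pow_le_pow_left₀ (by positivity) (min_le_left _ _) 2
      refine ⟨?_, k, hw.wp _ ⟨rad x hx, k⟩, fun i => (sm.1 i).trans dd,
        fun z => (sm.2 z).trans dd⟩
      have := ok.btt _ r1
      have := mul_nonneg ok.del.1.le ((r1_pos ok).2.le.trans r1)
      show c.bt x.2.1 ≤ x.1
      linarith [h.t1, k'.1]
  have a1 := Yz_cmp E (f := E.eta n) (g := fun x => Real.exp (-κ * (x.1 - t)) *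
      dn (t + 1) (t + 2) x.1 * dn b (b + ε) (-ε * x.1 + -1 * x.2.1) * dn ri ro x.2.1 * E.eta n x)
    univ (ye_ms c0.r1 ri t (t + 1)) .univ (Real.exp_pos κ).le fun x hx => by
      rw [indicator_univ, dn_one g1 hx.2.2.2, dn_one hr hx.2.1, dn_one g3 (by
        linarith [hx.1, mul_le_mul_of_nonneg_left hx.2.2.1 e0.le]), mul_one, mul_one, mul_one,
        ← mul_assoc, ← Real.exp_add]
      exact le_mul_of_one_le_left (eta_nn E n x) (Real.one_le_exp (by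
        linarith [mul_le_mul_of_nonneg_left hx.2.2.2 κ0.le]))
  have a2 := Yz_cmp E (g := E.eta n) (f := fun x => Real.exp (-κ * (x.1 - t)) *
      dn (t + 1) (t + 2) x.1 * dn b (b + ε) (-ε * x.1 + -1 * x.2.1) * deriv (up ri ro) x.2.1 *
        E.eta n x) univ .univ (ye_ms ri ro (t - l) (t + 2))
    (show 0 ≤ Real.exp (κ * l) * D by positivity) fun x _ => by
      by_cases k : x ∈ {x : E6 | ri ≤ x.2.1 ∧ x.2.1 ≤ ro ∧ t - l ≤ x.1 ∧ x.1 ≤ t + 2}
      · rw [indicator_of_mem k]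
        have a3 := hD ri x.2.1
        rw [add_sub_cancel] at a3
        exact mul_le_mul_of_nonneg_right (mul_le_mul ((mul_le_of_le_one_right (mul_nonneg
          (Real.exp_pos _).le (dn_nonneg _ _ _)) (dn_le _ _ _)).trans ((mul_le_of_le_one_right
          (Real.exp_pos _).le (dn_le _ _ _)).trans (Real.exp_le_exp.2 (by
            linarith [mul_le_mul_of_nonneg_left k.2.2.1 κ0.le])))) a3 (up_der hr _)
          (Real.exp_pos _).le) (eta_nn E n x)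
      · rw [indicator_of_notMem k, mul_zero]
        refine le_of_eq (by_contra fun z => k ?_)
        have z' := mul_ne_zero_iff.1 (mul_ne_zero_iff.1 z).1
        have y : x.2.1 ∈ Icc ri ro := by_contra fun y => z'.2 (up_der_out hr y)
        exact ⟨y.1, y.2, sup x y.2 z'.1⟩
  simp only [univ_inter] at a1 a2
  simp only [mem_univ, ofPred_true] at key
  refine (Yz_mono E _ fun x hx _ k => ?_).trans (a1.trans ((mul_le_mul_right
    (key.trans (mul_le_mul_right a2 _)) _).trans_eq ?_))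
  · exact ⟨rad x hx, k.2⟩
  · rw [ENNReal.ofReal_mul (Real.exp_pos κ).le, ENNReal.ofReal_mul C0.le, Ye]; ring

end Vale.Agent.P354EF
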