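import Vale.Agent.P354EF.Hom
import Vale.Agent.P354FN.Fam
import Vale.Agent.P354XR.Es3
import Vale.Agent.P354XF.Uni

/-!
The ring of fields of the near region.
-/

open scoped ContDiff Topology
open Set Filter

noncomputable section

namespace Vale.Agent.P354EF

open P354XG P354XI P354XD P354XR P354BO P354Z P354XT P354XF P354FN
open P354XI.Ibp (rl)

variable {c : P354Z.Cs} {E : Est} (h : Nr c E) (s : ℤ)

/-- The ring of fields. -/
def Ph : Fld (Sm (on E.O1)) := fldO h.co.op ∅ s (fun r => hs c.M (E.M, E.a, r))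
  fun r => js c.M (E.M, E.a, r)

theorem Ph_is : (Ph h s).Is :=
  fldO_is h.co.op (cone_off h.co) (fun _ hx => hx.1.elim) _ (sl_sm (hs_sm h.M0) _ _)
    (sl_sm (js_sm h.M0) _ _)

theorem Ph_X : (Ph h s).X = h.raw.brg.X := by
  have : (kk h.raw.K h.raw.p).R = (Ph h s).R := by
    ext u
    rw [kk_R]
    simp [Ph, fldO, Hp.kc, pI, Nr.raw, pT, kT]
    rfl
  change _ = XX h.raw.K h.raw.p
  rw [XX, this]
  rfl

theorem Ph_hom : h.raw.brg.Hom (Ph h s) (AlgHom.id ℂ _) E.M E.a :=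
  ⟨fun c f => by rw [Ph_X]; rfl, ext_fv h.co.op fun x hx =>
    ((fv_z 1 hx).trans (by simp [zc, tr])).trans (fv_fO (φ := fun z => id z.2) contDiff_snd hx).symm,
    rfl, rfl, rfl⟩

theorem fm_sp (b : Bool) (J : List (Fin 5)) : h.raw.brg.fm b J ∈ (Ph h (sz b)).Sp := by
  have e : spn b = (sz b : ℤ) := by cases b <;> simp [spn, sz]
  have h1 : h.raw.K.H _ = spn b • _ := h.raw.brg_is.V_fm b false J
  have h2 : h.raw.K.B _ = (-spn b) • _ := h.raw.brg_is.V_fm b true J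
  rw [e] at h1 h2
  exact ⟨h1, h2.trans (neg_smul _ _)⟩

theorem re_del (a b : Fin 5) : (Ph h s).B.Re (h.raw.brg.del a b) := h.raw.c_del a b

theorem Ph_P (b : Bool) (J : List (Fin 5)) :
    (Ph h s).P (sp b) (sp b) E.M E.a (h.raw.brg.fm b J) = (kw (Ph h s) E.M E.a).Op (1 - sp b)
      (2 * (1 - 2 * sp b)) (-(4 * sp b)) (h.raw.brg.fm b J) +
        rl _ (sp b ^ 2 - sp b) * h.raw.brg.fm b J := by
  have e : (Ph h (sz b)).s = sp b := by cases b <;> simp [Ph, fldO, sz, sp]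
  have := P_eq (Ph_is h (sz b)) E.M E.a (sp b) (fm_sp h b J)
  rw [e] at this
  exact this

theorem pt_an (x : (Ph h s).B.Pt) : An x.1.1 :=
  an_of fun e => x.2 ((fv_bO x.1.2).trans (by simp [e]))

theorem eu_fm (b : Bool) (J : List (Fin 5)) : eu E.O1 (h.raw.brg.fm b J) = 0 := by
  have k := kT_HB h.co h.M0 E.M E.a
  have e := fm_sp h b J
  rw [eu_ap, ← k.2.1, ← k.2.2]
  exact (congrArg₂ (· + ·) e.1 e.2).trans (add_neg_cancel _)

theorem eu_cj {O : Set E6} (k : Cone O) (u : Sm (on O)) : eu O (cj u) = cj (eu O u) := by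
  have a := (P354CV.cone_hp k).c_H u
  have b := (P354CV.cone_hp k).c_Bf u
  rw [eu_ap, eu_ap, map_add, add_comm]
  exact congrArg₂ (· + ·) a.symm b.symm

theorem eu_lv2 (m : ℕ) : eu E.O1 (h.raw.brg.lv2 (Ph h s) (AlgHom.id ℂ _) m) = 0 := by
  have : ∀ b J, eu E.O1 ((Ph h s).sq (h.raw.brg.fp (AlgHom.id ℂ _) b J)) = 0 := fun b J => by
    change eu E.O1 (h.raw.brg.fm b J * cj (h.raw.brg.fm b J)) = 0
    rw [D_mul, eu_cj h.co, eu_fm, map_zero, mul_zero, mul_zero, add_zero]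
  simp only [Brg.lv2, Fld.lv, map_add, map_sum, this, Finset.sum_const_zero, add_zero]

theorem rv_lv2 (m : ℕ) (x : E6) :
    fv (h.raw.brg.lv2 (Ph h s) (AlgHom.id ℂ _) m) x = lvl h.raw m x := by
  by_cases a : x ∈ E.O1
  · have : ∀ b J, evO ⟨x, a⟩ ((Ph h s).sq (h.raw.brg.fp (AlgHom.id ℂ _) b J)) =
        (‖fv (h.raw.brg.fm b J) x‖ ^ 2 : ℝ) := fun b J => by
      change fv (h.raw.brg.fm b J * cj (h.raw.brg.fm b J)) x = _
      rw [fv_mul, fv_cj, Complex.mul_conj, Complex.normSq_eq_norm_sq]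
    change evO ⟨x, a⟩ _ = _
    simp only [Brg.lv2, Fld.lv, map_add, map_sum, this, lvl, Fintype.sum_bool]
    push_cast
    rfl
  · simp [lvl, fv_out _ a]

end Vale.Agent.P354EF
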