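import Vale.Agent.P354EF.ShK
import Vale.Agent.P354YN.Nat2
import Vale.Agent.P354YQ.Vg
import Vale.Agent.P354XA.Xi2

/-!
The natural fields in the straight chart.
-/

set_option maxSynthPendingDepth 3

open scoped ContDiff
open Set Filter Topology

noncomputable section

namespace Vale.Agent.P354EF

open Vale.Agent.P354n (R4)
open Vale.Agent.P354I (rp)
open Vale.Agent.P354R (Del Pull)
open Vale.Agent.P354RC (B2 bs Gm p_at)
open Vale.Agent.P354XD (tb)
open Vale.Agent.P354XE (Tw gin rd eT dr Lo Om pb Bd)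
open Vale.Agent.P354XA (rd_cd rd_cont gin_bil gin_lv)
open Vale.Agent.P354XM (rot rot_ap hin_sh hin_ap)
open Vale.Agent.P354XV (Lv Fst jet frz)
open Vale.Agent.P354YI
open Vale.Agent.P354YO (sh IsTh pr0 tb_ap)
open Vale.Agent.P354YN (Ad lN aL No FLD NATU KERR A3 A4 U3 lJ nJ AJ GJ dn)
open Vale.Agent.P354YA (NF Ok2 dd tp cp)
open Vale.Agent.P354YT (Pm)
open Vale.Agent.P354MG

variable {f X Y φ : R4 → R4} {g g' : Tw} {D D' W : Set R4} {x p w : R4} {m M M' a a' k κ : ℝ}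
  {A B : ℝ → ℝ} {c : Pm}

/-- The acceleration of the outgoing natural field. -/
theorem acc_l (F : FLD) (l : Lv g D) (hx : x ∈ D) (hX : ContDiffAt ℝ ∞ X x) (a : Ad m g (X x) x) :
    fderiv ℝ (fun z => lN m g (X z) z) x (lN m g (X x) x) +
      Gm (tb g) x (lN m g (X x) x) (lN m g (X x) x) = aL m g (X x) x (lN m g (X x) x) := by
  rw [(F m g D _ x l hx a).al, EventuallyEq.fderiv_eq ((frz F l hx hX a).mono fun _ h => h.1)]

/-- The acceleration is natural. -/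
theorem acc_nat (P : Pull f g' D' g D) (hx : x ∈ D') (hX : ContDiffAt ℝ ∞ X x)
    (hY : ContDiffAt ℝ ∞ Y (f x)) (e : ∀ᶠ z in 𝓝 x, fderiv ℝ f z (X z) = Y (f z)) :
    fderiv ℝ f x (fderiv ℝ X x (X x) + Gm (tb g') x (X x) (X x)) =
      fderiv ℝ Y (f x) (Y (f x)) + Gm (tb g) (f x) (Y (f x)) (Y (f x)) := by
  have s := p_at P hx
  have a1 := (((at_fd s).differentiableAt (by simp)).hasFDerivAt.clm_apply
    (hX.differentiableAt (by simp)).hasFDerivAt).unique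
    (((hY.differentiableAt (by simp)).hasFDerivAt.comp x
      (s.differentiableAt (by simp)).hasFDerivAt).congr_of_eventuallyEq e)
  have a2 := congrArg (· (X x)) a1
  simp only [add_apply, ContinuousLinearMap.comp_apply, ContinuousLinearMap.flip_apply,
    e.self_of_nhds] at a2
  rw [map_add, P354YN.Na.gm' P hx, e.self_of_nhds, ← a2]
  abel

theorem ker_l (N : NATU) (K : KERR) (P : Pull f g D (gin M' a') {p | 0 < rd p}) (hx : x ∈ D)
    (d : 0 < LinearMap.det (fderiv ℝ f x : R4 →ₗ[ℝ] R4)) (k0 : 0 < k) (hk : k ^ 3 * M' = m)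
    (ha : |a'| < M') (hr : rp M' a' < rd (f x))
    (o : gin M' a' (f x) (Lo M' a' (f x) + No (f x)) (fderiv ℝ f x w) < 0) :
    Ad m g w x ∧ fderiv ℝ f x (lN m g w x) = k⁻¹ • Lo M' a' (f x) ∧ ∀ v, aL m g w x v = 0 := by
  obtain ⟨-, -, -, n1, n2⟩ := N m f g D _ _ x w P (gin_lv M' a') hx d
  obtain ⟨k1, -, -, -, k2, -, -, k3, -⟩ := K m M' a' k _ _ k0 hk ha hr o
  obtain ⟨-, -, n3, -, -, -, n4⟩ := n2 (n1.2 k1)
  exact ⟨n1.2 k1, n3.trans k2, fun v => P.inj x hx ((n4 v).1.trans (by rw [k3, map_zero]; rfl))⟩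

/-- The test for the time orientation. -/
def To (M : ℝ) (z : (ℝ × ℝ × R4) × R4) : ℝ :=
  tb (gin z.1.1 z.1.2.1) z.1.2.2 (Lo z.1.1 z.1.2.1 z.1.2.2 + No z.1.2.2) (Lx M z.1 z.2)

theorem To_eq (t : IsTh M M' a' A B) (h : rd p ≠ 0) :
    gin M' a' (st4 M A B p) (Lo M' a' (st4 M A B p) + No (st4 M A B p))
      (fderiv ℝ (st4 M A B) p w) = To M ((M', a', p), w) := by
  have e : Lo M' a' (st4 M A B p) + No (st4 M A B p) = rot (B (rd p)) (Lo M' a' p + No p) := by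
    simp only [Lo, No, rd_st4]
    simp only [st4, sh, rot_ap, P354XM.sh, Om]
    ext <;> simp <;> ring
  rw [e, st_fd t h, ← hin_ap (M', a')]
  exact ((hin_sh (M', a') _ _ p _ _).trans (hin_ap _ _ _ _)).trans (tb_ap (gin_bil _ _ _) _ _).symm

theorem To_pz (h : rd p ≠ 0) : To M ((M', a', pr0 p), w) = To M ((M', a', p), w) := by
  have e : fderiv ℝ rd (pr0 p) = fderiv ℝ rd p := ContinuousLinearMap.ext fun v =>
    (P354XA.rd_fd (p := pr0 p) h v).trans (P354XA.rd_fd h v).symm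
  have : Lx M (M', a', pr0 p) = Lx M (M', a', p) := by
    show _ + (fderiv ℝ rd (pr0 p)).smulRight _ = _
    rw [e]; rfl
  rw [To, this]; rfl

theorem To_cont (h0 : 0 < M) {z : (ℝ × ℝ × R4) × R4} (h : 0 < rd z.1.2.2)
    (d : Del z.1.1 z.1.2.1 (rd z.1.2.2) ≠ 0) : ContinuousAt (To M) z := by
  have g : ContDiffAt ℝ ∞ (fun z : ℝ × ℝ × R4 => tb (gin z.1 z.2.1) z.2.2) z.1 :=
    ContDiffAt.sum fun _ _ => ContDiffAt.sum fun _ _ => (P354YR.s_gin contDiffAt_snd.snd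
      (P354YR.xs_ne h) contDiffAt_fst contDiffAt_snd.fst _ _).smul contDiffAt_const
  have r : Continuous fun z : (ℝ × ℝ × R4) × R4 => rd z.1.2.2 := rd_cont.comp (by fun_prop)
  have h' := h.ne'
  refine ((g.continuousAt.comp continuousAt_fst).clm_apply ?_).clm_apply
    (((Lx_cd h0 h).continuousAt.comp continuousAt_fst).clm_apply continuousAt_snd)
  show ContinuousAt (fun z : (ℝ × ℝ × R4) × R4 => (((2 * (rd z.1.2.2 ^ 2 + z.1.2.1 ^ 2) /
    Del z.1.1 z.1.2.1 (rd z.1.2.2) - 1, (rd z.1.2.2)⁻¹ • z.1.2.2.2) : R4) +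
    (2 * z.1.2.1 / Del z.1.1 z.1.2.1 (rd z.1.2.2)) • ((0, -z.1.2.2.2.2.1, z.1.2.2.2.1, 0) : R4)) +
    ((1, -((rd z.1.2.2)⁻¹ • z.1.2.2.2)) : R4)) z
  unfold Del at *
  generalize hr : (fun z : (ℝ × ℝ × R4) × R4 => rd z.1.2.2) = ρ at r
  simp only [show ∀ z : (ℝ × ℝ × R4) × R4, rd z.1.2.2 = ρ z from fun z => congrFun hr z] at *
  fun_prop (disch := assumption)

theorem To_neg (h0 : 0 < M) (t : IsTh M M' a' A B) (ha : |a'| < M') (hM : M' ≤ 5 / 4 * M)
    (h : 6 * M ≤ rd p) : To M ((M', a', p), er4 p) < 0 := by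
  have r : 0 < rd p := by linarith
  have r' : 0 < rd (st4 M A B p) := by rwa [rd_st4]
  have d := P354YT.Del_pos ha (show rp M' a' < rd (st4 M A B p) by
    rw [rd_st4]; linarith [(P354XA.hor ha).2.2.2.1])
  rw [← To_eq t r.ne', st_er h0 t (by linarith) h, (P354YR.LN_val (P354YR.xs_ne r') d.ne').2.1]
  exact neg_neg_of_pos (div_pos (mul_pos two_pos ((pow_pos r' 2).trans_le (P354XA.Sg_ge _ _))) d)

theorem st_inj (t : IsTh M M' a' A B) (h : rd p ≠ 0) :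
    Function.Injective (fderiv ℝ (st4 M A B) p) :=
  (LinearMap.equivOfDetNeZero _ ((st_det t h).trans_ne one_ne_zero)).injective

theorem st_pull (h0 : 0 < M) (t : IsTh M M' a' A B) (l : Lv g W) :
    Pull (st4 M A B) (pb (st4 M A B) g) {p | 0 < rd p ∧ st4 M A B p ∈ W} g W :=
  ⟨isOpen_iff_mem_nhds.2 fun _ h => (rd_cont.continuousAt.eventually_const_lt h.1).and
    ((st_cd h0 t h.1.ne').continuousAt.eventually (l.isOpen.mem_nhds h.2)), l.isOpen, l.met,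
    fun _ h => (st_cd h0 t h.1.ne').contDiffWithinAt, fun _ h => h.2, fun _ h => st_inj t h.1.ne',
    fun _ _ _ _ => rfl⟩

/-- The domain of the chart of the nearby Kerr metric. -/
def Dk (φ : R4 → R4) : Set R4 := {z | (∀ᶠ y in 𝓝 z, ContDiffAt ℝ ∞ φ y) ∧ 0 < rd (φ z) ∧
  0 < LinearMap.det (fderiv ℝ φ z : R4 →ₗ[ℝ] R4)}

theorem k_fd (h0 : 0 < M) (t : IsTh M M' a' A B) (h : x ∈ Dk φ) :
    fderiv ℝ (st4 M A B ∘ φ) x = (fderiv ℝ (st4 M A B) (φ x)).comp (fderiv ℝ φ x) :=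
  fderiv_comp x ((st_cd h0 t h.2.1.ne').differentiableAt (by simp))
    (h.1.self_of_nhds.differentiableAt (by simp))

theorem k_det (h0 : 0 < M) (t : IsTh M M' a' A B) (h : x ∈ Dk φ) :
    0 < LinearMap.det (fderiv ℝ (st4 M A B ∘ φ) x : R4 →ₗ[ℝ] R4) := by
  rw [k_fd h0 t h]
  exact (LinearMap.det_comp (fderiv ℝ (st4 M A B) (φ x) : R4 →ₗ[ℝ] R4) _).ge.trans_lt' (by
    rw [st_det t h.2.1.ne', one_mul]; exact h.2.2)

theorem k_pull (h0 : 0 < M) (t : IsTh M M' a' A B) :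
    Pull (st4 M A B ∘ φ) (pb φ (kS M M' a' A B)) (Dk φ) (gin M' a') {p | 0 < rd p} :=
  ⟨isOpen_iff_mem_nhds.2 fun _ h => h.1.eventually_nhds.and
    (((rd_cont.continuousAt.comp h.1.self_of_nhds.continuousAt).eventually_const_lt h.2.1).and
      ((ContinuousLinearMap.continuous_det.continuousAt.comp
        (at_fd h.1.self_of_nhds).continuousAt).eventually_const_lt h.2.2)),
    (gin_lv M' a').isOpen, (gin_lv M' a').met,
    fun _ h => ((st_cd h0 t h.2.1.ne').comp _ h.1.self_of_nhds).contDiffWithinAt,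
    fun _ h => (h.2.1.trans_eq (rd_st4 _ _ _ _).symm :),
    fun _ h => (LinearMap.equivOfDetNeZero _ (k_det h0 t h).ne').injective,
    fun _ h _ _ => by rw [k_fd h0 t h]; rfl⟩

/-- The nearby Kerr metric. -/
theorem k_pt (N : NF) (h0 : 0 < M) (t : IsTh M M' a' A B) (ha : |a'| < M') (hM : M' ≤ 5 / 4 * M)
    (k0 : 0 < k) (hk : k ^ 3 * M' = M) (h : x ∈ Dk φ) (r0 : 0 < rd x) (r : 6 * M ≤ rd (φ x))
    (o : To M ((M', a', φ x), fderiv ℝ φ x (er4 x)) < 0) {K : Tw} (e : K = pb φ (kS M M' a' A B)) :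
    Ad M K (er4 x) x ∧ dfc φ k⁻¹ x = fderiv ℝ φ x (er4 x - lN M K (er4 x) x) ∧
      aL M K (er4 x) x (er4 x) = 0 ∧ fderiv ℝ (fun z => lN M K (er4 z) z) x (lN M K (er4 x) x) +
        Gm (tb K) x (lN M K (er4 x) x) (lN M K (er4 x) x) = 0 := by
  have P := k_pull (φ := φ) h0 t
  rw [← e] at P
  obtain ⟨a1, a2, a3⟩ := ker_l (w := er4 x) N.2.2.2.1 N.2.2.2.2 P h (k_det h0 t h) k0 hk ha
    (by rw [Function.comp, rd_st4]; linarith [(P354XA.hor ha).2.2.2.1])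
    (by rw [k_fd h0 t h]; exact (To_eq t h.2.1.ne').trans_lt o)
  refine ⟨a1, ?_, a3 _, (acc_l N.2.2.1 ((gin_lv M' a').pull P) h (er_cd r0) a1).trans (a3 _)⟩
  rw [k_fd h0 t h, Function.comp, ← st_er h0 t (by linarith) r, ← map_smul] at a2
  rw [map_sub, dfc, show fderiv ℝ φ x (lN M K (er4 x) x) = _ from st_inj t h.2.1.ne' a2]

/-- The gauge in the straight chart. -/
theorem h_pt (N : NF) (o : Ok2 c) (t : IsTh c.M c.M c.a A B) (r : c.R1 + 1 / 2 < rd x)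
    (F : ∀ᶠ p in 𝓝 (st4 c.M A B x), Fst c κ g p) {h : Tw} (e : h = pb (st4 c.M A B) g)
    (a : ∀ᶠ z in 𝓝 x, Ad c.M h (er4 z) z) :
    (rd x ≤ c.R1 + 5 / 4 → er4 x = lN c.M h (er4 x) x) ∧ Gm (tb h) x (er4 x) (er4 x) =
      (tp (rd x - c.R1) + cp (rd x - c.R1)) • aL c.M h (er4 x) x (er4 x) := by
  have m := o.1.M0
  have R := o.2
  have r0 : 0 < rd x := by linarith
  obtain ⟨W, l, hW⟩ := F.self_of_nhds.lv
  have P := st_pull m t l
  rw [← e] at P
  have hx : x ∈ {p | 0 < rd p ∧ st4 c.M A B p ∈ W} := ⟨r0, hW⟩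
  have X : ∀ z, c.R1 + 1 / 2 ≤ rd z → fderiv ℝ (st4 c.M A B) z (er4 z) = c.X (st4 c.M A B z) :=
    fun z hz => (st_er m t (by linarith) (by linarith)).trans (P354XV.X_out o.1 (by
      rw [dd, rd_st4]; linarith)).symm
  have n := fun z (hz : z ∈ {p | 0 < rd p ∧ st4 c.M A B p ∈ W}) =>
    (N.2.2.2.1 c.M _ _ _ _ _ z (er4 z) P l hz (one_pos.trans_eq (st_det t hz.1.ne').symm)).2.2.2.2
  have b : ∀ z ∈ {p | 0 < rd p ∧ st4 c.M A B p ∈ W}, c.R1 + 1 / 2 ≤ rd z → rd z ≤ c.R1 + 5 / 4 →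
      Fst c κ g (st4 c.M A B z) → Ad c.M h (er4 z) z → er4 z = lN c.M h (er4 z) z :=
    fun z hz r1 r2 f a => P.inj z hz (by
      rw [(n z hz a).2.2.1, X z r1]
      exact f.out (by rw [dd, rd_st4]; linarith) (by rw [dd, rd_st4]; linarith))
  refine ⟨fun r2 => b x hx r.le r2 F.self_of_nhds a.self_of_nhds, ?_⟩
  have ev := rd_cont.continuousAt.eventually_const_lt r
  rcases lt_or_ge (rd x) (c.R1 + 5 / 4) with r2 | r2
  · have u : er4 =ᶠ[𝓝 x] fun z => lN c.M h (er4 z) z := by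
      filter_upwards [P.open'.mem_nhds hx, ev, rd_cont.continuousAt.eventually_lt_const r2,
        (st_cd m t r0.ne').continuousAt.eventually F, a] with z h1 h2 h3 h4 h5
      exact b z h1 h2.le h3.le h4 h5
    have k := acc_l N.2.2.1 (l.pull P) hx (er_cd r0) a.self_of_nhds
    rw [← u.fderiv_eq, ← show er4 x = lN c.M h (er4 x) x from u.self_of_nhds, er_er r0,
      zero_add] at k
    rw [k, P354YA.cp_mid (by linarith), add_sub_cancel, one_smul]
  · have d : dd c (st4 c.M A B x) = rd x - c.R1 := by rw [dd, rd_st4]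
    have k := acc_nat P hx (er_cd r0) (P354YA.X_at o.1.sub (o.out (by rw [d]; linarith)).1
      (o.out (by rw [d]; linarith)).2) (ev.mono fun z hz => X z hz.le)
    rw [er_er r0, zero_add, F.self_of_nhds.gau.acc l hW] at k
    refine P.inj x hx (k.trans ?_)
    rw [map_smul, ((n x hx a.self_of_nhds).2.2.2.2.2.2 _).1, X x r.le]
    simp only [P354YA.nat, P354YA.Fa, d, P354YA.tp_zero (show 1 ≤ rd x - c.R1 by linarith),
      P354YA.cp_lo (show -(rd x - c.R1) ≤ 3 / 4 by linarith), zero_mul, zero_smul, zero_add,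
      add_zero]
    rfl

end Vale.Agent.P354EF
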