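import Vale.Agent.P354EF.ShP
import Vale.Agent.P354TS.Lift

/-!
The jets of the metrics in the straight chart.
-/

set_option maxSynthPendingDepth 3

open scoped ContDiff
open Set Filter Topology

noncomputable section

namespace Vale.Agent.P354EF

open Vale.Agent.P354n (R4)
open Vale.Agent.P354RC (B2 bs Gm)
open Vale.Agent.P354XD (tb)
open Vale.Agent.P354XE (Tw gin rd eT pb Bd)
open Vale.Agent.P354XA (rd_cd rd_cont gin_lv)
open Vale.Agent.P354XV (Lv Fst jet)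
open Vale.Agent.P354YI
open Vale.Agent.P354YO (IsTh pr0 tb_ap oj_bil oj_st shell_cpt)
open Vale.Agent.P354YN (lN aL A3 A4 U3 lJ nJ AJ GJ dn u3_open lj_at nj_at aj_at dn_at gj_jet)
open Vale.Agent.P354YA (NF Ok2 tp cp)
open Vale.Agent.P354YT (Pm)
open Vale.Agent.P354TS (oj_nid rd_near)
open Vale.Agent.P354MG

variable {M a r0 ρ c : ℝ} {A B : ℝ → ℝ} {m : ℕ} {g g' : Tw} {p : R4}

theorem ks_bil {M' : ℝ} : Vale.Agent.P354.Bilin (kS M M' a A B p) :=
  P354YO.bil_pb (P354XA.gin_bil _ _ _)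

/-- The pull back of a nearby Kerr metric. -/
theorem oj_k {J : Type} {x : J → R4} {φ : J → R4 → R4} {M' a' ε : J → ℝ} {A' B' : J → ℝ → ℝ}
    (h0 : 0 < M) (h1 : 0 < r0) (hx : ∀ j, r0 ≤ rd (x j) ∧ rd (x j) ≤ ρ)
    (t : ∀ j, IsTh M (M' j) (a' j) (A' j) (B' j)) (hp : ∀ j, |M' j - M| + |a' j - a| ≤ ε j)
    (e1 : ∀ j, ε j ≤ 1 ∧ 4 * ε j ≤ r0) (N : ∀ j, Nid m (φ j) (x j) (ε j)) :
    Oj m x (fun j y => tb (pb (φ j) (kS M (M' j) (a' j) (A' j) (B' j))) y - kx M (M, a, y)) ε := by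
  have d : Oj m x (fun j y => fderiv ℝ (φ j) y - .id ℝ R4) ε :=
    .of (fun j => (at_fd (N j).sm).sub contDiffAt_const) fun j => (N j).d
  have d1 : Oj m x (fun j => fderiv ℝ (φ j)) 1 := ((d.mono le_rfl fun j => (e1 j).1).add
    (.cst (.id ℝ R4))).congr' fun _ _ => (sub_add_cancel _ _).symm
  let f : J → R4 → ℝ × ℝ × R4 := fun j y => (M' j, a' j, pr0 (φ j y))
  let f' : J → R4 → ℝ × ℝ × R4 := fun _ y => (M, a, pr0 y)
  have p1 := fun j => (le_add_of_nonneg_right (abs_nonneg _)).trans (hp j)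
  have p2 := fun j => (le_add_of_nonneg_left (abs_nonneg _)).trans (hp j)
  have dd : Oj (m + 1) x (fun j y => f j y - f' j y) ε :=
    ((Oj.const (v := fun j => M' j - M) d.nn ⟨1, fun j => by simpa using p1 j⟩).pair
      ((Oj.const (v := fun j => a' j - a) d.nn ⟨1, fun j => by simpa using p2 j⟩).pair
        ((oj_nid N).clm pr0))).congr' fun j y => by simp [f, f', pr0]
  have o' : Oj (m + 1) x f' 1 := (Oj.cst M).pair ((Oj.cst a).pair
    (oj_st (F := id) h1 hx fun _ _ => contDiffAt_id))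
  have o : Oj (m + 1) x f 1 := ((dd.mono le_rfl fun j => (e1 j).1).add o').congr'
    fun _ _ => (sub_add_cancel _ _).symm
  have seg : ∀ j, segment ℝ (f j (x j)) (f' j (x j)) ⊆ Zk M a (r0 / 2) (ρ + 2) := fun j z hz => by
    have k : z ∈ Metric.closedBall (f' j (x j)) (ε j) := (convex_closedBall _ _).segment_subset
      (by
        rw [mem_closedBall_iff_norm]
        exact max_le (p1 j) (max_le (p2 j) (max_le (by simpa [f, f', pr0] using d.nn j) (N j).x)))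
      (Metric.mem_closedBall_self (d.nn j)) hz
    rw [mem_closedBall_iff_norm] at k
    have k1 := abs_le.1 (((norm_fst_le _).trans k).trans (e1 j).1)
    have k2 := abs_le.1 ((((norm_fst_le _).trans (norm_snd_le _)).trans k).trans (e1 j).1)
    have k3 := abs_le.1 (rd_near (p := z.2.2) (q := x j)
      ((((norm_snd_le _).trans (norm_snd_le _)).trans (norm_snd_le _)).trans k))
    simp only [Prod.fst_sub, Prod.snd_sub, f'] at k1 k2
    exact ⟨⟨by linarith [k1.1], by linarith [k1.2]⟩, ⟨by linarith [k2.1], by linarith [k2.2]⟩,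
      by linarith [k3.1, (hx j).1, (e1 j).2], by linarith [k3.2, (hx j).2, (e1 j).1]⟩
  have G := fun m => os_kx (J := J) h0 M a (half_pos h1) (ρ + 2) m
  have l1 := Oj.lip o.sm o'.sm seg m (o.fd.le (Nat.sub_le m 1)) (o'.fd.le (Nat.sub_le m 1))
    dd.pred (G _)
  have l2 := Oj.comp o.sm m (o.fd.le (Nat.sub_le m 1))
    ((G m).at id fun j => seg j (left_mem_segment ℝ _ _))
  refine ((((oj_bil l2 d d1).mono (ν := ε) le_rfl fun j => by simp).add ((oj_bil l2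
    (Oj.cst (.id ℝ R4)) d).mono le_rfl fun j => by simp)).add
    (l1.mono le_rfl fun j => by simp)).congr fun j => ?_
  filter_upwards [(rd_cont.continuousAt.comp (N j).sm.continuousAt).eventually_ne
    ((half_pos h1).trans_le (seg j (left_mem_segment ℝ _ _)).2.2.1).ne',
    rd_cont.continuousAt.eventually_ne (h1.trans_le (hx j).1).ne'] with y h2 h3
  rw [P354YO.tb_pb ks_bil, kS_tb (t j) h2,
    ← kx_pz M (z := (M' j, a' j, φ j y)) h2, ← kx_pz M (z := (M, a, y)) h3]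
  refine ContinuousLinearMap.ext fun v => ContinuousLinearMap.ext fun w => ?_
  show kx M (f j y) (fderiv ℝ (φ j) y v) (fderiv ℝ (φ j) y w) - kx M (f' j y) v w = _
  simp only [add_apply, sub_apply, ContinuousLinearMap.flip_apply, ContinuousLinearMap.comp_apply,
    map_sub, ContinuousLinearMap.id_apply]
  ring

theorem jet_le (h : Bd m g p c) : ‖jet m g p‖ ≤ c := by
  have c0 : 0 ≤ c := by simpa [norm_bs] using (norm_nonneg _).trans (h 0 m.zero_le (bs 0) (bs 0))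
  refine (pi_norm_le_iff_of_nonneg c0).2 fun k => (pi_norm_le_iff_of_nonneg c0).2 fun α =>
    (pi_norm_le_iff_of_nonneg c0).2 fun i => (pi_norm_le_iff_of_nonneg c0).2 fun j =>
      (ContinuousMultilinearMap.le_opNorm _ _).trans ?_
  simpa [norm_bs] using h k (Nat.lt_succ_iff.1 k.2) (bs i) (bs j)

theorem jet_sb {D D' : Set R4} (l : Lv g D) (l' : Lv g' D') (h : p ∈ D) (h' : p ∈ D') :
    jet m (g - g') p = jet m g p - jet m g' p := by
  funext n α i j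
  simp only [jet, Pi.sub_apply]
  rw [fun_iteratedFDeriv_sub_apply ((Lv.at l h _ _).of_le (le_inf _))
    ((Lv.at l' h' _ _).of_le (le_inf _))]
  rfl

theorem ks_lv (h0 : 0 < M) {M' : ℝ} (t : IsTh M M' a A B) : Lv (kS M M' a A B) {p | 0 < rd p} :=
  ((gin_lv M' a).pull (st_pull h0 t (gin_lv M' a))).mono (gin_lv M' a).isOpen
    fun _ h => ⟨h, (h.trans_eq (rd_st4 _ _ _ _).symm :)⟩

theorem dk_of {φ : R4 → R4} {e : ℝ} (N : Nid m φ p e) (h : e < 1) (h' : 2 * e < rd p) :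
    p ∈ Dk φ := ⟨N.ev, by linarith [(abs_le.1 (rd_near N.x)).1], P354YQ.det_near (A := .id ℝ R4)
  zero_le_one (fun _ => (one_mul _).ge) (by
    rw [one_mul, norm_sub_rev]; exact N.d.zero.trans_lt h) (by simp)⟩

theorem near_j (h0 : 0 < M) (h1 : 0 < r0) (t : IsTh M M a A B) (ρ : ℝ) : ∃ C, 0 ≤ C ∧
    ∀ φ M' a' A' B' x ε, IsTh M M' a' A' B' → |M' - M| + |a' - a| ≤ ε → ε < 1 → 4 * ε ≤ r0 →
      r0 ≤ rd x → rd x ≤ ρ → Nid 4 φ x ε →
      ‖jet 4 (pb φ (kS M M' a' A' B')) x - jet 4 (kS M M a A B) x‖ ≤ C * ε := by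
  let J := {j : (R4 → R4) × ℝ × ℝ × (ℝ → ℝ) × (ℝ → ℝ) × R4 × ℝ //
    IsTh M j.2.1 j.2.2.1 j.2.2.2.1 j.2.2.2.2.1 ∧ |j.2.1 - M| + |j.2.2.1 - a| ≤ j.2.2.2.2.2.2 ∧
    j.2.2.2.2.2.2 < 1 ∧ 4 * j.2.2.2.2.2.2 ≤ r0 ∧ (r0 ≤ rd j.2.2.2.2.2.1 ∧ rd j.2.2.2.2.2.1 ≤ ρ) ∧
    Nid 4 j.1 j.2.2.2.2.2.1 j.2.2.2.2.2.2}
  obtain ⟨C, c0, hC⟩ := ((oj_k (J := J) h0 h1 (fun j => j.2.2.2.2.2.1) (fun j => j.2.1)
    (fun j => j.2.2.1) (fun j => ⟨j.2.2.2.1.le, j.2.2.2.2.1⟩) fun j => j.2.2.2.2.2.2).bd'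
    (g := fun j => pb j.1.1 (kS M j.1.2.1 j.1.2.2.1 j.1.2.2.2.1 j.1.2.2.2.2.1) - kS M M a A B)
    fun j => (rd_cont.continuousAt.eventually_ne (h1.trans_le j.2.2.2.2.2.1.1).ne').mono
      fun y hy v w => by
        rw [sub_apply, sub_apply, ← kS_ap t hy,
          tb_ap (P354YO.bil_pb ks_bil)]; rfl)
  refine ⟨C, c0, fun φ M' a' A' B' x ε a1 a2 a3 a4 a5 a6 a7 => ?_⟩
  rw [← jet_sb ((gin_lv M' a').pull (k_pull h0 a1)) (ks_lv h0 t)
    (dk_of a7 a3 (by linarith [a7.d.nonneg])) (h1.trans_le a5)]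
  exact jet_le (hC ⟨(φ, M', a', A', B', x, ε), a1, a2, a3, a4, ⟨a5, a6⟩, a7⟩)

/-- The jet with the radial vector. -/
def J4 (M : ℝ) (g : Tw) (x : R4) : A4 := (M, jet 4 g x, er4 x)

theorem ex_S (N : NF) (ha : |a| < M) (t : IsTh M M a A B) (h1 : 6 * M ≤ r0) (ρ : ℝ) :
    ∃ δ > 0, ∃ S : Set A4, IsCompact S ∧ (∀ z ∈ S, dn z ∈ U3) ∧ ∀ x, r0 ≤ rd x → rd x ≤ ρ →
      Metric.closedBall (J4 M (kS M M a A B) x) δ ⊆ S := by
  have h0 := (abs_nonneg _).trans_lt ha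
  have k := (shell_cpt r0 ρ).image_of_continuousOn (f := J4 M (kS M M a A B)) fun y hy => by
    have r : 0 < rd y := by linarith [hy.2.1]
    exact (continuousAt_const.prodMk (((ks_lv h0 t).jet_at r 4).continuousAt.prodMk
      (er_cd r).continuousAt)).continuousWithinAt
  obtain ⟨δ, d0, hd⟩ := k.exists_cthickening_subset_open (u3_open.preimage
    (continuous_iff_continuousAt.2 fun _ => (dn_at contDiffAt_id).continuousAt)) (by
    rintro _ ⟨y, hy, rfl⟩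
    have r : 0 < rd y := by linarith [hy.2.1]
    exact (ker_l (m := M) N.2.2.2.1 N.2.2.2.2 (st_pull h0 t (gin_lv M a)) ⟨r, (r.trans_eq
      (rd_st4 _ _ _ _).symm :)⟩ (one_pos.trans_eq (st_det t r.ne').symm) one_pos (by simp) ha
      (by rw [rd_st4]; linarith [(P354XA.hor ha).2.2.2.1, hy.2.1])
      ((To_eq t r.ne').trans_lt (To_neg h0 t ha (by linarith) (h1.trans hy.2.1)))).1)
  refine ⟨δ, d0, _, k.cthickening, hd, fun x a1 a2 z hz =>
    Metric.mem_cthickening_of_dist_le _ _ _ _ ⟨pr0 x, ⟨rfl, a1, a2⟩, ?_⟩ hz⟩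
  have e : x = pr0 x + x.1 • eT := by simp [pr0, eT]
  refine Prod.ext rfl (Prod.ext ?_ rfl)
  funext n α i j
  conv_rhs => rw [e]
  simp only [J4, jet, ← iteratedFDeriv_comp_add_right, kS, st4,
    P354YO.pb_st (P354YO.gin_st M a)]

theorem ex_T (ha : |a| < M) (t : IsTh M M a A B) (h1 : 6 * M ≤ r0) (ρ : ℝ) :
    ∃ δ > 0, ∀ x, r0 ≤ rd x → rd x ≤ ρ → ∀ z, dist z ((M, a, pr0 x), er4 x) ≤ δ →
      ∀ᶠ y in 𝓝 z, To M y < 0 := by
  have h0 := (abs_nonneg _).trans_lt ha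
  have k := (shell_cpt r0 ρ).image_of_continuousOn (f := fun y => ((M, a, y), er4 y)) fun y hy =>
    ((by fun_prop : ContinuousAt (fun y : R4 => (M, a, y)) y).prodMk
      (er_cd (by linarith [hy.2.1])).continuousAt).continuousWithinAt
  obtain ⟨δ, d0, hd⟩ := k.exists_cthickening_subset_open (isOpen_interior (s := {y | To M y < 0}))
    (by
      rintro _ ⟨y, hy, rfl⟩
      exact mem_interior_iff_mem_nhds.2 ((To_cont (z := ((M, a, y), er4 y)) h0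
        (by linarith [hy.2.1] : 0 < rd y) (P354YT.Del_pos ha (by
        linarith [(P354XA.hor ha).2.2.2.1, hy.2.1] : _ < rd y)).ne').eventually_lt_const
        (To_neg h0 t ha (by linarith) (h1.trans hy.2.1))))
  exact ⟨δ, d0, fun x a1 a2 z hz => mem_interior_iff_mem_nhds.1 (hd
    (Metric.mem_cthickening_of_dist_le z ((M, a, pr0 x), er4 x) _ _ ⟨pr0 x, ⟨rfl, a1, a2⟩, rfl⟩ hz))⟩

theorem er_le (h : 0 < rd p) : ‖er4 p‖ ≤ 1 := by
  have k := P354XA.norm_le (pr0 p)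
  rw [show (pr0 p).1 = 0 from rfl, abs_zero, zero_add] at k
  rw [show er4 p = (rd p)⁻¹ • pr0 p by simp [er4, pr0], norm_smul, Real.norm_of_nonneg (by positivity)]
  exact (inv_mul_le_one₀ h).2 k

/-- The connection as a function of the jet. -/
def G4 (z : A4) : C3 := ∑ a, ∑ b, el R4 a b (GJ z.2.1 (bs a) (bs b))

theorem G4_cd {z : A4} (h : dn z ∈ U3) : ContDiffAt ℝ ∞ G4 z :=
  ContDiffAt.sum fun _ _ => ContDiffAt.sum fun _ _ => (el R4 _ _).contDiff.contDiffAt.comp z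
    (P354YN.SA.gj contDiffAt_snd.fst h.1.2.1.ne contDiffAt_const contDiffAt_const)

theorem G4_ap {D : Set R4} (l : Lv g D) (h : p ∈ D) (u v : R4) :
    G4 (J4 M g p) u v = Gm (tb g) p u v := by
  rw [← GM_ap]
  simp only [G4, J4, GM, gj_jet l.isOpen l.met h 3]

/-- The fields of the nearby Kerr metric. -/
def Kp (M k : ℝ) (φ : R4 → R4) (K : Tw) (x : R4) : Prop :=
  dfc φ k⁻¹ x = fderiv ℝ φ x (er4 x - lJ (dn (J4 M K x))) ∧ AJ lJ nJ (J4 M K x) (er4 x) = 0 ∧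
    fderiv ℝ (fun z => lJ (dn (J4 M K z))) x (lJ (dn (J4 M K x))) +
      Gm (tb K) x (lJ (dn (J4 M K x))) (lJ (dn (J4 M K x))) = 0

theorem kp_ev (N : NF) (ha : |a| < M) {φ : R4 → R4} {M' a' k e δ : ℝ} (t : IsTh M M' a' A B)
    (hp : |M' - M| + |a' - a| ≤ e) (k0 : 0 < k) (k3 : k ^ 3 * M' = M) (N1 : Nid m φ p e)
    (dk : p ∈ Dk φ) (r : 6 * M + 2 * e < rd p) (e3 : e ≤ δ) (e4 : e ≤ M / 4)
    (e5 : e ≤ (M - |a|) / 2)
    (hT : ∀ z, dist z ((M, a, pr0 p), er4 p) ≤ δ → ∀ᶠ y in 𝓝 z, To M y < 0) :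
    ∀ᶠ y in 𝓝 p, y ∈ Dk φ ∧ 0 < rd y ∧ Kp M k φ (pb φ (kS M M' a' A B)) y := by
  have h0 := (abs_nonneg _).trans_lt ha
  have e0 := N1.d.nonneg
  have x0 : 0 < rd p := by linarith
  have a1 := abs_nonneg (M' - M)
  have a2 := abs_nonneg (a' - a)
  have c : ContinuousAt (fun y => ((M', a', pr0 (φ y)), fderiv ℝ φ y (er4 y))) p :=
    (continuousAt_const.prodMk (continuousAt_const.prodMk
      (pr0.continuous.continuousAt.comp N1.sm.continuousAt))).prodMk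
      ((at_fd N1.sm).continuousAt.clm_apply (er_cd x0).continuousAt)
  have d : dist ((M', a', pr0 (φ p)), fderiv ℝ φ p (er4 p)) ((M, a, pr0 p), er4 p) ≤ δ := by
    have d1 := (fderiv ℝ φ p - .id ℝ R4).le_opNorm (er4 p)
    rw [sub_apply, ContinuousLinearMap.id_apply] at d1
    rw [Prod.dist_eq, Prod.dist_eq, Prod.dist_eq, Real.dist_eq, Real.dist_eq, dist_eq_norm,
      dist_eq_norm, ← map_sub, show ‖pr0 (φ p - p)‖ = ‖(φ p - p).2‖ by simp [pr0]]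
    exact max_le (max_le (by linarith) (max_le (by linarith) (N1.x.trans e3))) (d1.trans
      (((mul_le_of_le_one_right (norm_nonneg _) (er_le x0)).trans N1.d.zero).trans e3))
  filter_upwards [(k_pull h0 t).open'.mem_nhds dk, rd_cont.continuousAt.eventually_const_lt x0,
    (rd_cont.continuousAt.comp N1.sm.continuousAt).eventually_const_lt (show 6 * M < rd (φ p) by
      linarith [(abs_le.1 (rd_near N1.x)).1]), c.eventually (hT _ d)] with y b1 b2 b3 b4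
  exact ⟨b1, b2, (k_pt N h0 t (by linarith [abs_sub_abs_le_abs_sub a' a, neg_abs_le (M' - M)])
    (by linarith [le_abs_self (M' - M)]) k0 k3 b1 b2 b3.le ((To_pz b1.2.1.ne').symm.trans_lt b4)
    rfl).2⟩

theorem hp_ev (N : NF) {c : Pm} {κ R1 : ℝ} (o : Ok2 c) (eM : c.M = M) (ea : c.a = a)
    (eR : c.R1 = R1) (t : IsTh M M a A B) (r : R1 + 1 / 2 < rd p)
    (F : ∀ᶠ y in 𝓝 (st4 M A B p), Fst c κ g y) (u : dn (J4 M (pb (st4 M A B) g) p) ∈ U3) :
    ∀ᶠ y in 𝓝 p, (rd y ≤ R1 + 5 / 4 → er4 y = lJ (dn (J4 M (pb (st4 M A B) g) y))) ∧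
      G4 (J4 M (pb (st4 M A B) g) y) (er4 y) (er4 y) = (tp (rd y - R1) + cp (rd y - R1)) •
        AJ lJ nJ (J4 M (pb (st4 M A B) g) y) (er4 y) := by
  subst eM ea eR
  have h0 := o.1.M0
  have x0 : 0 < rd p := by linarith [o.2]
  obtain ⟨W, l, m⟩ := F.self_of_nhds.lv
  have l' := l.pull (st_pull h0 t l)
  have c : ContinuousAt (fun y => dn (J4 c.M (pb (st4 c.M A B) g) y)) p :=
    continuousAt_const.prodMk ((l'.jet_at ⟨x0, m⟩ 3).continuousAt.prodMk (er_cd x0).continuousAt)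
  filter_upwards [l'.isOpen.mem_nhds ⟨x0, m⟩, rd_cont.continuousAt.eventually_const_lt r,
    (st_cd h0 t x0.ne').continuousAt.eventually F.eventually_nhds,
    (c.eventually (u3_open.mem_nhds u)).eventually_nhds] with y b1 b2 b3 b4
  rw [G4_ap l' b1]
  exact h_pt N o t b2 b3 rfl b4

theorem tr_id {D : R4 →L[ℝ] R4} {Γ : C3} {e l : R4} (h : D l + Γ l l = 0) :
    0 - D e = (-D - Γ.flip e - Γ l) (e - l) + Γ e e := by
  simp only [sub_apply, neg_apply, map_sub, ContinuousLinearMap.flip_apply]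
  rw [eq_neg_of_add_eq_zero_left h]
  abel

/-- The estimate for families. -/
theorem core_oj {J : Type} {q : J → R4} {R R1 ρ : ℝ} {μ : J → ℝ} {n : ℕ} {h K : J → Tw}
    {D : J → Set R4} {S : Set A4} (h1 : 0 < R) (hq : ∀ j, R ≤ rd (q j) ∧ rd (q j) ≤ ρ)
    (hR : R < R1 + 5 / 4) (cS : IsCompact S) (sS : ∀ z ∈ S, dn z ∈ U3) (lK : ∀ j, Lv (K j) (D j))
    (jK : Os (n + 1) (fun j => Sr R (q j)) (fun j => J4 M (K j)) 1)
    (jh : Os (n + 1) (fun j => Sr R (q j)) (fun j => J4 M (h j)) 1)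
    (jd : Os (n + 1) (fun j => Sr R (q j)) (fun j y => J4 M (h j) y - J4 M (K j) y) μ)
    (seg : ∀ j, ∀ x ∈ Sr R (q j), segment ℝ (J4 M (h j) x) (J4 M (K j) x) ⊆ S)
    (pK : ∀ j, ∀ x ∈ Sr R (q j), ∀ᶠ y in 𝓝 x, y ∈ D j ∧ 0 < rd y ∧
      AJ lJ nJ (J4 M (K j) y) (er4 y) = 0 ∧ fderiv ℝ (fun z => lJ (dn (J4 M (K j) z))) y
        (lJ (dn (J4 M (K j) y))) + Gm (tb (K j)) y (lJ (dn (J4 M (K j) y)))
          (lJ (dn (J4 M (K j) y))) = 0)
    (pH : ∀ j, ∀ x ∈ Sr R (q j), ∀ᶠ y in 𝓝 x, (rd y ≤ R1 + 5 / 4 → er4 y = lJ (dn (J4 M (h j) y))) ∧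
      G4 (J4 M (h j) y) (er4 y) (er4 y) = (tp (rd y - R1) + cp (rd y - R1)) •
        AJ lJ nJ (J4 M (h j) y) (er4 y)) :
    Os n (fun j => Sr R (q j)) (fun j y => er4 y - lJ (dn (J4 M (K j) y))) μ := by
  have hx : ∀ i : {i : J × R4 // i.2 ∈ Sr R (q i.1)}, R ≤ rd i.1.2 ∧ rd i.1.2 ≤ ρ := fun i =>
    (sr_rd h1 i.2).imp_right fun u => u.trans (hq _).2
  have er : Os n (fun j => Sr R (q j)) (fun _ => er4) 1 := oj_st (F := er4) h1 hx fun _ => er_cd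
  have lip : ∀ {V : Type} [NormedAddCommGroup V] [NormedSpace ℝ V] {F : A4 → V},
      (∀ z, dn z ∈ U3 → ContDiffAt ℝ ∞ F z) →
      Os (n + 1) (fun j => Sr R (q j)) (fun j y => F (J4 M (K j) y)) 1 ∧
        Os (n + 1) (fun j => Sr R (q j)) (fun j y => F (J4 M (h j) y) - F (J4 M (K j) y)) μ :=
    fun hF => ⟨Oj.comp jK.sm (n + 1) jK.fd (Oj.fix cS (fun z hz => hF z (sS z hz))
      fun i => seg _ _ i.2 (right_mem_segment ℝ _ _)), (Oj.lip jh.sm jK.sm (fun i => seg _ _ i.2)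
      (n + 1) jh.fd jK.fd jd (Oj.fix cS (fun z hz => hF z (sS z hz)) fun i => i.2)).mono le_rfl
      fun _ => (one_mul _).le⟩
  have l1 := lip (F := fun z => lJ (dn z)) fun z hz => at_comp (lj_at hz) (dn_at contDiffAt_id)
  have l2 := lip (F := fun z => AJ lJ nJ z z.2.2) fun z hz =>
    aj_at contDiffAt_id hz (lj_at hz) (nj_at hz) contDiffAt_snd.snd
  have l3 := lip fun _ => G4_cd
  have m0 : ∀ j, ray R (q j) ∈ Sr R (q j) := fun j => ⟨_, left_mem_Icc.2 (hq j).1, rfl⟩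
  refine oj_ray h1 hq n (f := fun j y => G4 (J4 M (K j) y) (er4 y) (er4 y))
    (L := fun j y => -fderiv ℝ (fun y => lJ (dn (J4 M (K j) y))) y -
      (G4 (J4 M (K j) y)).flip (er4 y) - G4 (J4 M (K j) y) (lJ (dn (J4 M (K j) y))))
    (fun j y hy => ⟨(er.sm ⟨(j, y), hy⟩).sub (l1.1.sm ⟨(j, y), hy⟩), ?_⟩)
    ((l1.1.fd.neg.sub (l3.1.pred.flip.apl er)).sub (l3.1.pred.apl l1.1.pred))
    (((((l3.2.pred.apl er).apl er).neg.add ((oj_st (F := fun y => tp (rd y - R1) +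
      cp (rd y - R1)) h1 hx fun y hy => (P354YA.tp_cd.add P354YA.cp_cd).contDiffAt.comp y
        ((rd_cd hy.ne').sub contDiffAt_const)).smulr l2.2.pred))).congr fun i => ?_)
    ((l1.2.pred.ix fun j : J => ⟨(j, ray R (q j)), m0 j⟩).congr fun j => ?_)
  · filter_upwards [pK j y hy, ev_dif (l1.1.sm ⟨(j, y), hy⟩)] with z b1 b2
    have k := b1.2.2.2
    rw [← G4_ap (M := M) (lK j) b1.1] at k
    rw [fderiv_fun_sub ((er_cd b1.2.1).differentiableAt (by simp)) b2, sub_apply, er_er b1.2.1]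
    exact tr_id k
  · filter_upwards [pK _ _ i.2, pH _ _ i.2] with y b1 b2
    rw [sub_apply, sub_apply, b2.2, show AJ lJ nJ (J4 M (K i.1.1) y) (J4 M (K i.1.1) y).2.2 = 0
      from b1.2.2.1, sub_zero, neg_sub]
    exact (sub_add_cancel _ _).symm
  · filter_upwards [pH j _ (m0 j), rd_cont.continuousAt.eventually_lt_const
      ((rd_ray (h1.trans_le (hq j).1) h1.le).trans_lt hR)] with y b1 b2
    exact congrArg (· - _) (b1.1 b2.le)

end Vale.Agent.P354EF
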