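import Vale.Agent.P354EF.ShQ

/-!
SHELL: the image of the outgoing field.
-/

set_option maxSynthPendingDepth 3

open scoped ContDiff
open Set Filter Topology

noncomputable section

namespace Vale.Agent.P354EF

open Vale.Agent.P354n (R4)
open Vale.Agent.P354RC (B2 bs Gm)
open Vale.Agent.P354XD (tb)
open Vale.Agent.P354XE (Tw gin rd eT pb Bd)
open Vale.Agent.P354XA (rd_cd rd_cont gin_lv)
open Vale.Agent.P354XV (Lv Fst jet)
open Vale.Agent.P354YI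
open Vale.Agent.P354YO (IsTh pr0 tb_ap oj_bil oj_st shell_cpt)
open Vale.Agent.P354YN (lN aL A3 A4 U3 lJ nJ AJ GJ dn u3_open lj_at nj_at aj_at dn_at gj_jet)
open Vale.Agent.P354YA (NF Ok2 tp cp)
open Vale.Agent.P354YT (Pm)
open Vale.Agent.P354TS (oj_nid rd_near)
open Vale.Agent.P354MG

variable {M a r0 ρ c : ℝ} {A B : ℝ → ℝ} {m : ℕ} {g g' : Tw} {p : R4}

/-- The jets of the two metrics. -/
theorem oj_J {J : Type} {x : J → R4} {φ : J → R4 → R4} {M' a' μ : J → ℝ} {A' B' : J → ℝ → ℝ}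
    {h : J → Tw} {D : J → Set R4} {e : ℝ} {n : ℕ} (h0 : 0 < M) (h1 : 0 < r0)
    (hx : ∀ j, r0 ≤ rd (x j) ∧ rd (x j) ≤ ρ) (t : ∀ j, IsTh M (M' j) (a' j) (A' j) (B' j))
    (hp : ∀ j, |M' j - M| + |a' j - a| ≤ e) (e1 : e < 1) (e2 : 4 * e ≤ r0)
    (N : ∀ j, Nid (n + 4) (φ j) (x j) e) (l : ∀ j, Lv (h j) (D j)) (m : ∀ j, x j ∈ D j)
    (u : ∀ j, μ j ∈ Icc 0 e) {K : J → Tw}
    (eK : ∀ j, K j = pb (φ j) (kS M (M' j) (a' j) (A' j) (B' j)))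
    (b : ∀ j, Bd (n + 4) (h j - K j) (x j) (μ j)) :
    Oj n x (fun j => J4 M (K j)) 1 ∧ Oj n x (fun j => J4 M (h j)) 1 ∧
      Oj n x (fun j y => J4 M (h j) y - J4 M (K j) y) μ := by
  obtain rfl := funext eK
  have x0 : ∀ i, 0 < rd (x i) := fun i => h1.trans_le (hx i).1
  have dk : ∀ i, x i ∈ Dk (φ i) := fun i =>
    dk_of (N i) e1 (by linarith [(hx i).1, (N i).d.nonneg])
  have lK := fun j => (gin_lv _ _).pull (k_pull (φ := φ j) h0 (t j))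
  have o0 : Oj (n + 4) x (fun _ y => kx M (M, a, y)) 1 :=
    (oj_st (F := fun y => kx M (M, a, y)) h1 hx fun y hy =>
      at_comp (f := fun y => (M, a, y)) (kx_cd h0 hy) (by fun_prop)).congr fun i =>
      (rd_cont.continuousAt.eventually_ne (x0 i).ne').mono fun y hy =>
        (kx_pz M (z := (M, a, y)) hy).symm
  have jK := (Oj.cst M).pair ((P354YQ.oj_jt ((((oj_k h0 h1 hx t hp (fun _ => ⟨e1.le, e2⟩) N).mono
    le_rfl fun _ => e1.le).add o0).congr' fun _ _ => (sub_add_cancel _ _).symm)).pair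
    (oj_st (F := er4) h1 hx fun _ => er_cd))
  have z0 : ∀ {V : Type} [NormedAddCommGroup V] [NormedSpace ℝ V], Oj n x (fun _ _ => (0 : V)) μ :=
    Oj.const (fun i => (u i).1) ⟨0, by simp⟩
  have jd : Oj n x (fun i y => J4 M (h i) y -
      J4 M (pb (φ i) (kS M (M' i) (a' i) (A' i) (B' i))) y) μ :=
    (z0.pair ((P354YQ.oj_jt (g := fun i => h i - pb (φ i) (kS M (M' i) (a' i) (A' i) (B' i)))
      (Oj.tb (fun i v w => (Lv.at (l i) (m i) v w).sub (Lv.at (lK _) (dk i) v w)) b)).pair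
      z0)).congr fun i => by
      filter_upwards [(l i).isOpen.mem_nhds (m i), (lK _).isOpen.mem_nhds (dk i)] with y a1 a2
      rw [jet_sb (l i) (lK _) a1 a2]
      simp [J4]
  exact ⟨jK, ((jd.mono le_rfl fun i => (u i).2.trans e1.le).add jK).congr'
    fun _ _ => (sub_add_cancel _ _).symm, jd⟩

theorem seg_J {h K G : Tw} {D D' : Set R4} {e δ : ℝ} (l : Lv h D) (l' : Lv K D') (a1 : p ∈ D)
    (a2 : p ∈ D') (b : Bd 4 (h - K) p e) (k : ‖jet 4 K p - jet 4 G p‖ ≤ c * e) (e0 : 0 ≤ e)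
    (d0 : 0 ≤ δ) (d : e * (c + 1) ≤ δ) :
    segment ℝ (J4 M h p) (J4 M K p) ⊆ Metric.closedBall (J4 M G p) δ := by
  have a := jet_le b
  rw [jet_sb l l' a1 a2] at a
  refine (convex_closedBall _ _).segment_subset ?_ ?_ <;>
    simp only [mem_closedBall_iff_norm, J4, Prod.mk_sub_mk, sub_self, Prod.norm_def, norm_zero,
      max_le_iff, d0, true_and, and_true]
  · exact (norm_sub_le_norm_sub_add_norm_sub _ (jet 4 K p) _).trans (by linarith)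
  · linarith

/-- The data. -/
structure Sd where
  c : Pm
  κ : ℝ
  g : Tw
  φ : R4 → R4
  M : ℝ
  a : ℝ
  A : ℝ → ℝ
  B : ℝ → ℝ
  k : ℝ
  μ : ℝ
  q : R4

structure Sd.Ok (d : Sd) (M a R1 : ℝ) (A B : ℝ → ℝ) (m : ℕ) (ρ e : ℝ) : Prop where
  o : Ok2 d.c
  eM : d.c.M = M
  ea : d.c.a = a
  eR : d.c.R1 = R1
  t : IsTh M d.M d.a d.A d.B
  p : |d.M - M| + |d.a - a| ≤ e
  k0 : 0 < d.k
  k3 : d.k ^ 3 * d.M = M
  r : R1 + 1 ≤ rd d.q ∧ rd d.q ≤ ρ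
  u : d.μ ∈ Icc 0 e
  s : ∀ s ∈ Icc (R1 + 1) (rd d.q), (∀ᶠ p in 𝓝 (st4 M A B (ray s d.q)), Fst d.c d.κ d.g p) ∧
    Nid m d.φ (ray s d.q) e ∧ Bd m (pb (st4 M A B) d.g - pb d.φ (kS M d.M d.a d.A d.B))
      (ray s d.q) d.μ

theorem shell_ok (N : NF) : SHELL := by
  intro M a R1 A B n t
  refine ⟨n + 1 + 4, fun ρ => ?_⟩
  by_cases hc : |a| < M ∧ 10 * M + 10 ≤ R1
  swap
  · exact ⟨0, 1, one_pos, fun c _ _ _ _ _ _ _ _ _ _ o e1 e2 e3 =>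
      (hc ⟨e1 ▸ e2 ▸ o.1.sub, e1 ▸ e3 ▸ o.2⟩).elim⟩
  obtain ⟨ha, hR⟩ := hc
  have h0 := (abs_nonneg _).trans_lt ha
  have h1 : 0 < R1 + 1 := by linarith
  obtain ⟨C1, c1, hC⟩ := near_j h0 h1 t ρ
  obtain ⟨δ, d0, S, cS, sS, hS⟩ := ex_S N ha t (show 6 * M ≤ R1 + 1 by linarith) ρ
  obtain ⟨δ', d0', hT⟩ := ex_T ha t (show 6 * M ≤ R1 + 1 by linarith) ρ
  obtain ⟨e, e0, e1, e2, e3, e4, e5⟩ : ∃ e > 0, e ≤ 1 / 2 ∧ e * (C1 + 1) ≤ δ ∧ e ≤ δ' ∧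
      e ≤ M / 4 ∧ e ≤ (M - |a|) / 2 :=
    ⟨min (min (1 / 2) (δ / (C1 + 1))) (min δ' (min (M / 4) ((M - |a|) / 2))), by
      have := sub_pos.2 ha; positivity, (min_le_left _ _).trans (min_le_left _ _),
      (le_div_iff₀ (by positivity)).1 ((min_le_left _ _).trans (min_le_right _ _)),
      (min_le_right _ _).trans (min_le_left _ _),
      (min_le_right _ _).trans ((min_le_right _ _).trans (min_le_left _ _)),
      (min_le_right _ _).trans ((min_le_right _ _).trans (min_le_right _ _))⟩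
  let J := {d : Sd // d.Ok M a R1 A B (n + 1 + 4) ρ e}
  let I := {i : J × R4 // i.2 ∈ Sr (R1 + 1) i.1.1.q}
  let x : I → R4 := fun i => i.1.2
  let h : J → Tw := fun j => pb (st4 M A B) j.1.g
  let K : J → Tw := fun j => pb j.1.φ (kS M j.1.M j.1.a j.1.A j.1.B)
  have hx : ∀ i, R1 + 1 ≤ rd (x i) ∧ rd (x i) ≤ ρ := fun i =>
    (sr_rd h1 i.2).imp_right fun u => u.trans i.1.1.2.r.2
  have x0 : ∀ i, 0 < rd (x i) := fun i => h1.trans_le (hx i).1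
  have H : ∀ i : I, (∀ᶠ p in 𝓝 (st4 M A B (x i)), Fst i.1.1.1.c i.1.1.1.κ i.1.1.1.g p) ∧
      Nid (n + 1 + 4) i.1.1.1.φ (x i) e ∧ Bd (n + 1 + 4) (h i.1.1 - K i.1.1) (x i) i.1.1.1.μ :=
    fun i => let ⟨s, a1, a2⟩ := i.2; (show ray s _ = x i from a2) ▸ i.1.1.2.s s a1
  have dk : ∀ i : I, x i ∈ Dk i.1.1.1.φ := fun i =>
    dk_of (H i).2.1 (by linarith) (by linarith [(hx i).1])
  have lK : ∀ j : J, Lv (K j) (Dk j.1.φ) := fun j => (gin_lv _ _).pull (k_pull h0 j.2.t)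
  choose W lW mW using fun i => (H i).1.self_of_nhds.lv
  have lh := fun i => (lW i).pull (st_pull h0 t (lW i))
  have mh : ∀ i, x i ∈ {p | 0 < rd p ∧ st4 M A B p ∈ W i} := fun i => ⟨x0 i, mW i⟩
  obtain ⟨jK, jh, jd⟩ := oj_J (h := fun i : I => h i.1.1) (K := fun i => K i.1.1) h0 h1 hx
    (fun i => i.1.1.2.t) (fun i => i.1.1.2.p) (by linarith) (by linarith) (fun i => (H i).2.1) lh mh
    (fun i => i.1.1.2.u) (fun _ => rfl) fun i => (H i).2.2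
  have seg : ∀ i : I, segment ℝ (J4 M (h i.1.1) (x i)) (J4 M (K i.1.1) (x i)) ⊆ S := fun i =>
    (seg_J (lh i) (lK _) (mh i) (dk i) (bd_le (H i).2.2 (by omega) i.1.1.2.u.2)
      (hC _ _ _ _ _ _ _ i.1.1.2.t i.1.1.2.p (by linarith) (by linarith) (hx i).1 (hx i).2
        ((H i).2.1.mono (by omega) le_rfl)) e0.le d0.le e2).trans (hS _ (hx i).1 (hx i).2)
  have pK := fun i : I => kp_ev N ha i.1.1.2.t i.1.1.2.p i.1.1.2.k0 i.1.1.2.k3 (H i).2.1 (dk i)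
    (by linarith [(hx i).1]) e3 e4 e5 (hT _ (hx i).1 (hx i).2)
  have key := core_oj (q := fun j : J => j.1.q) (μ := fun j => j.1.μ) (R1 := R1) h1
    (fun j => j.2.r) (by linarith) cS sS lK jK jh jd (fun j y hy => seg ⟨(j, y), hy⟩)
    (fun j y hy => (pK ⟨(j, y), hy⟩).mono fun _ b => ⟨b.1, b.2.1, b.2.2.2⟩) fun j y hy =>
      hp_ev N j.2.o j.2.eM j.2.ea j.2.eR t (by linarith [(hx ⟨(j, y), hy⟩).1]) (H ⟨(j, y), hy⟩).1
        (sS _ (seg ⟨(j, y), hy⟩ (left_mem_segment ℝ _ _)))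
  obtain ⟨C, -, hC⟩ := (((((Oj.of (fun i => (at_fd (H i).2.1.sm).sub contDiffAt_const) fun i =>
    (H i).2.1.d).mono (m' := n) (by omega) fun _ => (by linarith : e ≤ 1)).add
    (.cst (.id ℝ R4))).apr key).congr (g := fun i => dfc i.1.1.1.φ i.1.1.1.k⁻¹) fun i =>
      (pK i).mono fun y b => b.2.2.1.trans (by simp only [sub_add_cancel, K])).bd
  exact ⟨C, e, e0, fun c κ g φ M' a' A' B' k μ q b1 b2 b3 b4 _ b5 b6 b7 b8 b9 b10 b11 b12 =>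
    hC ⟨(⟨⟨c, κ, g, φ, M', a', A', B', k, μ, q⟩, b1, b2, b3, b4, b5, b6, b7, b8, ⟨b9, b10⟩, b11,
      b12⟩, q), rd q, right_mem_Icc.2 b9, ray_self (h1.trans_le b9)⟩⟩

end Vale.Agent.P354EF
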